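import Vale.Agent.P066.MathlibUsed
import Vale.Agent.P066.Defs

set_option linter.all false

section

section

set_option autoImplicit false

namespace Vale.Agent.P066

open Finset

/-- Internal bookkeeping: colours `0..N-1`, variables `x`, parameter `q`, the coefficients
`P t a` of `∏_{s<t}(1+q x_s z) ∏_{t≤s<N}(1+x_s z)` and `G c a` of the same product
with the factor `s = c` removed. -/
structure Cut (R : Type*) [CommRing R] where
  N : ℕ
  x : ℕ → R
  q : R
  P : ℕ → ℕ → R
  G : ℕ → ℕ → R
  hG0 : ∀ c, c < N → G c 0 = 1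
  hP : ∀ c, c < N → ∀ a, P c (a + 1) = G c (a + 1) + x c * G c a
  hP' : ∀ c, c < N → ∀ a, P (c + 1) (a + 1) = G c (a + 1) + q * x c * G c a
  hPN : ∀ a, P N a = q ^ a * P 0 a

namespace Cut

variable {R : Type*} [CommRing R] (K : Cut R)

/-- elementary symmetric functions -/
def e (a : ℕ) : R := K.P 0 a

/-- colour function of a clique on `a` vertices with its last vertex marked -/
def β : ℕ → ℕ → R
  | 0, _ => 0
  | (a + 1), c => K.x c * K.G c a

lemma β_succ (a c : ℕ) : K.β (a + 1) c = K.x c * K.G c a := rfl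

lemma tele_step {c : ℕ} (hc : c < K.N) (a : ℕ) :
    (K.q - 1) * K.β (a + 1) c = K.P (c + 1) (a + 1) - K.P c (a + 1) := by
  rw [K.hP c hc, K.hP' c hc]; rw [K.β_succ]; ring

lemma tele {s t : ℕ} (hst : s ≤ t) (ht : t ≤ K.N) (a : ℕ) :
    (K.q - 1) * ∑ c ∈ Ico s t, K.β (a + 1) c = K.P t (a + 1) - K.P s (a + 1) := by
  rw [Finset.mul_sum, ← Finset.sum_Ico_sub (fun c => K.P c (a + 1)) hst]
  apply Finset.sum_congr rfl
  intro c hc
  exact K.tele_step (lt_of_lt_of_le (mem_Ico.1 hc).2 ht) a

/-- the product sums `H_m` of bidegree `n = m + r + 2`, for `c₁ > c₂` -/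
def Hgt (m r c1 c2 : ℕ) : R :=
  ∑ i ∈ range (m / 2 + 1), K.q ^ i * (K.β (m + r + 1 - i) c1 * K.β (i + 1) c2)
    + ∑ j ∈ range ((m + 1) / 2), K.q ^ (m - j) * (K.β (j + 1) c1 * K.β (m + r + 1 - j) c2)

/-- the product sums `H_m` of bidegree `n = m + r + 2`, for `c₁ < c₂` -/
def Hlt (m r c1 c2 : ℕ) : R :=
  ∑ i ∈ range (m / 2 + 1), K.q ^ (m + 1 - i) * (K.β (m + r + 1 - i) c1 * K.β (i + 1) c2)
    + ∑ j ∈ range ((m + 1) / 2), K.q ^ (j + 1) * (K.β (j + 1) c1 * K.β (m + r + 1 - j) c2)

def H (m r c1 c2 : ℕ) : R := if c2 < c1 then K.Hgt m r c1 c2 else K.Hlt m r c1 c2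

/-- forget the older vertex -/
def del (F : ℕ → ℕ → R) (c2 : ℕ) : R :=
  ∑ c1 ∈ range K.N, if c1 = c2 then 0 else F c1 c2

/-- add a new vertex (colour `c2`) adjacent to the single active vertex (colour `c1`) -/
def up (f : ℕ → R) (c1 c2 : ℕ) : R :=
  (if c1 < c2 then K.q else 1) * (K.x c2 * f c1)

/-- weight of an edge from an old vertex of colour `a` to a new vertex of colour `b` -/
def wt (a b : ℕ) : R := if a = b then 0 else if a < b then K.q else 1

/-- add a new vertex (colour `c3`) adjacent to both active vertices, forget the older -/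
def A (F : ℕ → ℕ → R) (c2 c3 : ℕ) : R :=
  K.wt c2 c3 * (K.x c3 * ∑ c1 ∈ range K.N, K.wt c1 c3 * (if c1 = c2 then 0 else F c1 c2))

end Cut

end Vale.Agent.P066
end
end

section

section

set_option autoImplicit false

namespace Vale.Agent.P066

open Finset

namespace Cut

variable {R : Type*} [CommRing R] (K : Cut R)

lemma sum_Hlt {s t : ℕ} (hst : s ≤ t) (ht : t ≤ K.N) (m r u : ℕ) :
    (K.q - 1) * ∑ c ∈ Ico s t, K.Hlt m r c u
      = ∑ i ∈ range (m / 2 + 1), K.q ^ (m + 1 - i) *
          ((K.P t (m + r + 1 - i) - K.P s (m + r + 1 - i)) * K.β (i + 1) u)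
        + ∑ j ∈ range ((m + 1) / 2), K.q ^ (j + 1) *
          ((K.P t (j + 1) - K.P s (j + 1)) * K.β (m + r + 1 - j) u) := by
  simp only [Hlt, Finset.sum_add_distrib, mul_add]
  congr 1
  · rw [Finset.sum_comm, Finset.mul_sum]
    apply Finset.sum_congr rfl
    intro i hi
    have hi' : i ≤ m := by have := mem_range.1 hi; omega
    have h1 : m + r + 1 - i = (m + r - i) + 1 := by omega
    rw [h1, ← K.tele hst ht, ← Finset.mul_sum, ← Finset.sum_mul]
    ring
  · rw [Finset.sum_comm, Finset.mul_sum]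
    apply Finset.sum_congr rfl
    intro j hj
    rw [← K.tele hst ht, ← Finset.mul_sum, ← Finset.sum_mul]
    ring

lemma sum_Hgt {s t : ℕ} (hst : s ≤ t) (ht : t ≤ K.N) (m r u : ℕ) :
    (K.q - 1) * ∑ c ∈ Ico s t, K.Hgt m r c u
      = ∑ i ∈ range (m / 2 + 1), K.q ^ i *
          ((K.P t (m + r + 1 - i) - K.P s (m + r + 1 - i)) * K.β (i + 1) u)
        + ∑ j ∈ range ((m + 1) / 2), K.q ^ (m - j) *
          ((K.P t (j + 1) - K.P s (j + 1)) * K.β (m + r + 1 - j) u) := by
  simp only [Hgt, Finset.sum_add_distrib, mul_add]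
  congr 1
  · rw [Finset.sum_comm, Finset.mul_sum]
    apply Finset.sum_congr rfl
    intro i hi
    have hi' : i ≤ m := by have := mem_range.1 hi; omega
    have h1 : m + r + 1 - i = (m + r - i) + 1 := by omega
    rw [h1, ← K.tele hst ht, ← Finset.mul_sum, ← Finset.sum_mul]
    ring
  · rw [Finset.sum_comm, Finset.mul_sum]
    apply Finset.sum_congr rfl
    intro j hj
    rw [← K.tele hst ht, ← Finset.mul_sum, ← Finset.sum_mul]
    ring

/-- abstract cancellation: `T` and `V` terms -/
lemma cancel_aux (m : ℕ) (T V : ℕ → R)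
    (hT : ∀ k, m = 2 * k + 1 → T (k + 1) = 0) (hV : ∀ k, m = 2 * k → V k = 0) :
    ∑ i ∈ range (m / 2 + 1), (T i + V i) - ∑ j ∈ range ((m + 1) / 2), (T (j + 1) + V j) = T 0 := by
  rcases Nat.even_or_odd' m with ⟨k, hk | hk⟩
  · have h1 : m / 2 + 1 = k + 1 := by omega
    have h2 : (m + 1) / 2 = k := by omega
    rw [h1, h2]
    simp only [Finset.sum_add_distrib]
    rw [Finset.sum_range_succ' T, Finset.sum_range_succ V, hV k hk]
    ring
  · have h1 : m / 2 + 1 = k + 1 := by omega
    have h2 : (m + 1) / 2 = k + 1 := by omega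
    rw [h1, h2]
    simp only [Finset.sum_add_distrib]
    rw [Finset.sum_range_succ' T, Finset.sum_range_succ (fun j => T (j + 1)), hT k hk]
    ring

lemma key {u : ℕ} (hu : u < K.N) (m r : ℕ) :
    ∑ i ∈ range (m / 2 + 1), (K.q ^ (m + 1 - i) * K.P u (m + r + 1 - i)
        - K.q ^ i * K.P (u + 1) (m + r + 1 - i)) * K.β (i + 1) u
      + ∑ j ∈ range ((m + 1) / 2), (K.q ^ (j + 1) * K.P u (j + 1)
        - K.q ^ (m - j) * K.P (u + 1) (j + 1)) * K.β (m + r + 1 - j) u
      = (K.q ^ (m + 1) - 1) * K.β (m + r + 2) u := by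
  have main := cancel_aux (R := R) m
    (fun i => (K.q ^ (m + 1 - i) - K.q ^ i) * (K.x u * K.G u (m + r + 1 - i) * K.G u i))
    (fun i => (K.q ^ (m + 1 - i) - K.q ^ (i + 1)) * (K.x u ^ 2 * K.G u (m + r - i) * K.G u i))
    (by intro k hk
        have : m + 1 - (k + 1) = k + 1 := by omega
        simp only [this]; ring)
    (by intro k hk
        have : m + 1 - k = k + 1 := by omega
        simp only [this]; ring)
  have hT0 : (K.q ^ (m + 1) - 1) * K.β (m + r + 2) u
      = (K.q ^ (m + 1 - 0) - K.q ^ 0) * (K.x u * K.G u (m + r + 1 - 0) * K.G u 0) := by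
    rw [K.hG0 u hu]
    simp only [β_succ, Nat.sub_zero, pow_zero]
    ring
  rw [hT0, ← main, sub_eq_add_neg, ← Finset.sum_neg_distrib]
  congr 1
  · apply Finset.sum_congr rfl
    intro i hi
    have hi' : i ≤ m := by have := mem_range.1 hi; omega
    have h1 : m + r + 1 - i = (m + r - i) + 1 := by omega
    rw [h1, K.hP u hu, K.hP' u hu]
    simp only [β_succ]
    ring
  · apply Finset.sum_congr rfl
    intro j hj
    have hj' : j < m ∨ (j = 0 ∧ m = 0) ∨ j ≤ m := by have := mem_range.1 hj; omega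
    have hj2 : j + 1 ≤ m ∨ m = 0 := by have := mem_range.1 hj; omega
    have hj3 : j ≤ m := by have := mem_range.1 hj; omega
    have h1 : m + r + 1 - j = (m + r - j) + 1 := by omega
    have h2 : m + r + 1 - (j + 1) = m + r - j := by omega
    have h3 : m + 1 - (j + 1) = m - j := by omega
    have h4 : m + 1 - j = (m - j) + 1 := by omega
    rw [h1, K.hP u hu, K.hP' u hu, h2, h3, h4]
    simp only [β_succ]
    ring

/-- `q`-integer -/
def qi (n : ℕ) : R := ∑ i ∈ range n, K.q ^ i

lemma qi_mul (n : ℕ) : (K.q - 1) * K.qi n = K.q ^ n - 1 := by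
  rw [qi, mul_comm, geom_sum_mul]

lemma sum_split {u : ℕ} (hu : u < K.N) (F : ℕ → R) :
    ∑ c ∈ range K.N, (if c = u then 0 else F c)
      = ∑ c ∈ Ico 0 u, F c + ∑ c ∈ Ico (u + 1) K.N, F c := by
  rw [← Finset.sum_range_add_sum_Ico _ (le_of_lt hu), Finset.sum_eq_sum_Ico_succ_bot hu]
  rw [Finset.range_eq_Ico]
  simp only [if_true, zero_add]
  congr 1
  · apply Finset.sum_congr rfl
    intro c hc
    have := (mem_Ico.1 hc).2
    rw [if_neg (by omega)]
  · apply Finset.sum_congr rfl
    intro c hc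
    have := (mem_Ico.1 hc).1
    rw [if_neg (by omega)]

lemma del_H {u : ℕ} (hu : u < K.N) (m r : ℕ) :
    (K.q - 1) * K.del (K.H m r) u
      = (K.q - 1) * (K.qi (m + 1) * K.β (m + r + 2) u
        + ∑ i ∈ range (m / 2 + 1), K.q ^ (m + 1 - i) * K.qi (r + i)
            * (K.e (m + r + 1 - i) * K.β (i + 1) u)
        + ∑ j ∈ range ((m + 1) / 2), K.q ^ (j + 1) * K.qi (m - j)
            * (K.e (j + 1) * K.β (m + r + 1 - j) u)) := by
  have hsum : K.del (K.H m r) u = ∑ c ∈ Ico 0 u, K.Hlt m r c u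
      + ∑ c ∈ Ico (u + 1) K.N, K.Hgt m r c u := by
    rw [del, K.sum_split hu]
    congr 1
    · apply Finset.sum_congr rfl
      intro c hc
      have := (mem_Ico.1 hc).2
      rw [H, if_neg (by omega)]
    · apply Finset.sum_congr rfl
      intro c hc
      have := (mem_Ico.1 hc).1
      rw [H, if_pos (by omega)]
  rw [hsum, mul_add, K.sum_Hlt (Nat.zero_le u) hu.le, K.sum_Hgt hu le_rfl, mul_add, mul_add,
    ← mul_assoc (K.q - 1) (K.qi (m + 1)), K.qi_mul, ← K.key hu m r]
  have e1 : ∀ (a b c d : R), a + b + (c + d) = (a + c) + (b + d) := by intros; ring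
  rw [e1, ← Finset.sum_add_distrib, ← Finset.sum_add_distrib]
  have e2 : ∀ (a b c d : R), a + b + c + d = (a + c) + (b + d) := by intros; ring
  rw [e2, Finset.mul_sum, Finset.mul_sum, ← Finset.sum_add_distrib, ← Finset.sum_add_distrib]
  congr 1
  · apply Finset.sum_congr rfl
    intro i hi
    have hi' : i ≤ m := by have := mem_range.1 hi; omega
    rw [K.hPN, e]
    have h1 : (K.q - 1) * (K.q ^ (m + 1 - i) * K.qi (r + i)
        * (K.P 0 (m + r + 1 - i) * K.β (i + 1) u))
        = K.q ^ (m + 1 - i) * ((K.q - 1) * K.qi (r + i))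
        * (K.P 0 (m + r + 1 - i) * K.β (i + 1) u) := by ring
    rw [h1, K.qi_mul]
    have h2 : K.q ^ i * K.q ^ (m + r + 1 - i) = K.q ^ (m + 1 - i) * K.q ^ (r + i) := by
      rw [← pow_add, ← pow_add]; congr 1; omega
    linear_combination (K.P 0 (m + r + 1 - i) * K.β (i + 1) u) * h2
  · apply Finset.sum_congr rfl
    intro j hj
    have hj3 : j ≤ m := by have := mem_range.1 hj; omega
    rw [K.hPN, e]
    have h1 : (K.q - 1) * (K.q ^ (j + 1) * K.qi (m - j)
        * (K.P 0 (j + 1) * K.β (m + r + 1 - j) u))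
        = K.q ^ (j + 1) * ((K.q - 1) * K.qi (m - j))
        * (K.P 0 (j + 1) * K.β (m + r + 1 - j) u) := by ring
    rw [h1, K.qi_mul]
    ring

end Cut

end Vale.Agent.P066
end
end

section

section

set_option autoImplicit false

namespace Vale.Agent.P066

open Finset

namespace Cut

variable {R : Type*} [CommRing R] (K : Cut R)

lemma Hlt_succ {v : ℕ} (hv : v < K.N) (m r u : ℕ) :
    K.Hlt (m + 1) r u v = K.q * K.x v * (K.q ^ (m + 1) * K.β (m + r + 2) u
      + ∑ i ∈ range (m / 2 + 1), K.q ^ i * (K.G v (m + r + 1 - i) * K.β (i + 1) u)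
      + ∑ j ∈ range ((m + 1) / 2), K.q ^ (m - j) * (K.G v (j + 1) * K.β (m + r + 1 - j) u)) := by
  rw [Hlt, Finset.sum_range_succ']
  have h2 : (m + 1 + 1) / 2 = m / 2 + 1 := by omega
  rw [h2, mul_add, mul_add, Finset.mul_sum, Finset.mul_sum]
  have e1 : ∀ (a b c : R), a + b + c = b + c + a := by intros; ring
  rw [e1]
  congr 1
  · congr 1
    · have : m + 1 + r + 1 - 0 = m + r + 2 := by omega
      rw [this]
      simp only [β_succ, K.hG0 v hv, Nat.sub_zero]
      ring
    · apply Finset.sum_congr rfl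
      intro i hi
      have hi' : i ≤ m := by have := mem_range.1 hi; omega
      have h1 : m + 1 + r + 1 - i = (m + r + 1 - i) + 1 := by omega
      rw [h1]
      simp only [β_succ]
      ring
  · apply Finset.sum_congr rfl
    intro j hj
    have hj3 : j ≤ m := by have := mem_range.1 hj; omega
    have h1 : m + 1 + r + 1 - (j + 1) = m + r + 1 - j := by omega
    have h3 : m + 1 + 1 - (j + 1) = (m - j) + 1 := by omega
    rw [h1, h3]
    simp only [β_succ]
    ring

lemma Hgt_succ {v : ℕ} (hv : v < K.N) (m r u : ℕ) :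
    K.Hgt (m + 1) r u v = K.x v * (K.β (m + r + 2) u
      + ∑ i ∈ range (m / 2 + 1), K.q ^ (m + 1 - i) * (K.G v (m + r + 1 - i) * K.β (i + 1) u)
      + ∑ j ∈ range ((m + 1) / 2), K.q ^ (j + 1) * (K.G v (j + 1) * K.β (m + r + 1 - j) u)) := by
  rw [Hgt, Finset.sum_range_succ']
  have h2 : (m + 1 + 1) / 2 = m / 2 + 1 := by omega
  rw [h2, mul_add, mul_add, Finset.mul_sum, Finset.mul_sum]
  have e1 : ∀ (a b c : R), a + b + c = b + c + a := by intros; ring
  rw [e1]
  congr 1
  · congr 1
    · have : m + 1 + r + 1 - 0 = m + r + 2 := by omega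
      rw [this]
      simp only [β_succ, K.hG0 v hv]
      ring
    · apply Finset.sum_congr rfl
      intro i hi
      have hi' : i ≤ m := by have := mem_range.1 hi; omega
      have h1 : m + 1 + r + 1 - i = (m + r + 1 - i) + 1 := by omega
      rw [h1]
      simp only [β_succ]
      ring
  · apply Finset.sum_congr rfl
    intro j hj
    have hj3 : j ≤ m := by have := mem_range.1 hj; omega
    have h1 : m + 1 + r + 1 - (j + 1) = m + r + 1 - j := by omega
    rw [h1]
    simp only [β_succ]
    ring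

/-- `(q-1)` times the remainder -/
def Rq (m r u : ℕ) : R :=
  (K.q ^ (m + 1) - K.q) * K.β (m + r + 2) u
    + ∑ i ∈ range (m / 2 + 1), (K.q ^ (m + r + 1) - K.q ^ (m + 2 - i))
        * (K.e (m + r + 1 - i) * K.β (i + 1) u)
    + ∑ j ∈ range ((m + 1) / 2), (K.q ^ (m + 1) - K.q ^ (j + 2))
        * (K.e (j + 1) * K.β (m + r + 1 - j) u)

lemma qP_sub {v : ℕ} (hv : v < K.N) (a : ℕ) :
    K.q * K.P v (a + 1) - K.P (v + 1) (a + 1) = (K.q - 1) * K.G v (a + 1) := by
  rw [K.hP v hv, K.hP' v hv]; ring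

lemma sum_three {u v : ℕ} (huv : u < v) (hv : v < K.N) (F : ℕ → R) :
    ∑ c ∈ range K.N, (if c = u then 0 else if c = v then 0 else F c)
      = ∑ c ∈ Ico 0 u, F c + ∑ c ∈ Ico (u + 1) v, F c + ∑ c ∈ Ico (v + 1) K.N, F c := by
  rw [K.sum_split (huv.trans hv) (fun c => if c = v then 0 else F c)]
  rw [add_assoc]
  congr 1
  · apply Finset.sum_congr rfl
    intro c hc
    have := (mem_Ico.1 hc).2
    rw [if_neg (by omega)]
  · rw [← Finset.sum_Ico_consecutive _ (show u + 1 ≤ v by omega) hv.le,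
      Finset.sum_eq_sum_Ico_succ_bot hv]
    simp only [if_true, zero_add]
    congr 1
    · apply Finset.sum_congr rfl
      intro c hc
      have := (mem_Ico.1 hc).2
      rw [if_neg (by omega)]
    · apply Finset.sum_congr rfl
      intro c hc
      have := (mem_Ico.1 hc).1
      rw [if_neg (by omega)]

lemma A_H_lt {u v : ℕ} (huv : u < v) (hv : v < K.N) (m r : ℕ) :
    (K.q - 1) * K.A (K.H m r) u v
      = (K.q - 1) * K.H (m + 1) r u v + K.up (K.Rq m r) u v := by
  have hu : u < K.N := huv.trans hv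
  have hsum : ∑ c1 ∈ range K.N, K.wt c1 v * (if c1 = u then 0 else K.H m r c1 u)
      = K.q * ∑ c ∈ Ico 0 u, K.Hlt m r c u + K.q * ∑ c ∈ Ico (u + 1) v, K.Hgt m r c u
        + ∑ c ∈ Ico (v + 1) K.N, K.Hgt m r c u := by
    have h0 : ∀ c ∈ range K.N, K.wt c v * (if c = u then 0 else K.H m r c u)
        = if c = u then 0 else if c = v then 0 else (K.wt c v * K.H m r c u) := by
      intro c _
      by_cases h1 : c = u
      · simp [h1]
      · by_cases h2 : c = v
        · simp [h2, wt]
        · simp [h1, h2]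
    rw [Finset.sum_congr rfl h0, K.sum_three huv hv]
    congr 1
    · congr 1
      · rw [Finset.mul_sum]
        apply Finset.sum_congr rfl
        intro c hc
        have := (mem_Ico.1 hc).2
        rw [H, if_neg (by omega), wt, if_neg (by omega), if_pos (by omega)]
      · rw [Finset.mul_sum]
        apply Finset.sum_congr rfl
        intro c hc
        have h3 := (mem_Ico.1 hc).2
        have h4 := (mem_Ico.1 hc).1
        rw [H, if_pos (by omega), wt, if_neg (by omega), if_pos (by omega)]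
    · apply Finset.sum_congr rfl
      intro c hc
      have h4 := (mem_Ico.1 hc).1
      rw [H, if_pos (by omega), wt, if_neg (by omega), if_neg (by omega), one_mul]
  rw [A, hsum, wt, if_neg huv.ne, if_pos huv, H, if_neg (by omega), up, if_pos huv,
    K.Hlt_succ hv, Rq]
  have hmain : (K.q - 1) * (K.q * ∑ c ∈ Ico 0 u, K.Hlt m r c u
        + K.q * ∑ c ∈ Ico (u + 1) v, K.Hgt m r c u
        + ∑ c ∈ Ico (v + 1) K.N, K.Hgt m r c u)
      = K.q * ((K.q ^ (m + 1) - 1) * K.β (m + r + 2) u)
      + (K.q - 1) * (∑ i ∈ range (m / 2 + 1), K.q ^ i * (K.G v (m + r + 1 - i) * K.β (i + 1) u)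
      + ∑ j ∈ range ((m + 1) / 2), K.q ^ (m - j) * (K.G v (j + 1) * K.β (m + r + 1 - j) u))
      + (∑ i ∈ range (m / 2 + 1), (K.q ^ (m + r + 1) - K.q ^ (m + 2 - i))
        * (K.e (m + r + 1 - i) * K.β (i + 1) u)
      + ∑ j ∈ range ((m + 1) / 2), (K.q ^ (m + 1) - K.q ^ (j + 2))
        * (K.e (j + 1) * K.β (m + r + 1 - j) u)) := by
    have s1 := K.sum_Hlt (Nat.zero_le u) hu.le m r u
    have s2 := K.sum_Hgt (show u + 1 ≤ v by omega) hv.le m r u
    have s3 := K.sum_Hgt hv le_rfl m r u
    have hL : (K.q - 1) * (K.q * ∑ c ∈ Ico 0 u, K.Hlt m r c u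
        + K.q * ∑ c ∈ Ico (u + 1) v, K.Hgt m r c u
        + ∑ c ∈ Ico (v + 1) K.N, K.Hgt m r c u)
        = K.q * ((K.q - 1) * ∑ c ∈ Ico 0 u, K.Hlt m r c u)
          + K.q * ((K.q - 1) * ∑ c ∈ Ico (u + 1) v, K.Hgt m r c u)
          + ((K.q - 1) * ∑ c ∈ Ico (v + 1) K.N, K.Hgt m r c u) := by ring
    rw [hL, s1, s2, s3, ← K.key hu m r]
    have e1 : ∀ (a b c d e' f : R), K.q * (a + b) + K.q * (c + d) + (e' + f)
        = (K.q * a + K.q * c + e') + (K.q * b + K.q * d + f) := by intros; ring
    have e2 : ∀ (a b c d e' f : R), K.q * (a + b) + (K.q - 1) * (c + d) + (e' + f)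
        = (K.q * a + (K.q - 1) * c + e') + (K.q * b + (K.q - 1) * d + f) := by intros; ring
    rw [e1, e2]
    simp only [Finset.mul_sum, ← Finset.sum_add_distrib]
    congr 1
    · apply Finset.sum_congr rfl
      intro i hi
      have hi' : i ≤ m := by have := mem_range.1 hi; omega
      rw [K.hPN, e]
      have h2 : K.q ^ i * K.q ^ (m + r + 1 - i) = K.q ^ (m + r + 1) := by
        rw [← pow_add]; congr 1; omega
      have h3 : K.q ^ (m + 2 - i) = K.q * K.q ^ (m + 1 - i) := by
        rw [← pow_succ']; congr 1; omega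
      have h5 : m + r + 1 - i = (m + r - i) + 1 := by omega
      have h4 := K.qP_sub hv (m + r - i)
      rw [← h5] at h4
      rw [h3]
      linear_combination (K.P 0 (m + r + 1 - i) * K.β (i + 1) u) * h2
        + (K.q ^ i * K.β (i + 1) u) * h4
    · apply Finset.sum_congr rfl
      intro j hj
      have hj3 : j ≤ m := by have := mem_range.1 hj; omega
      rw [K.hPN, e]
      have h4 := K.qP_sub hv j
      have h2 : K.q ^ (m - j) * K.q ^ (j + 1) = K.q ^ (m + 1) := by
        rw [← pow_add]; congr 1; omega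
      linear_combination (K.P 0 (j + 1) * K.β (m + r + 1 - j) u) * h2
        + (K.q ^ (m - j) * K.β (m + r + 1 - j) u) * h4
  linear_combination (K.q * K.x v) * hmain

lemma A_H_gt {u v : ℕ} (hvu : v < u) (hu : u < K.N) (m r : ℕ) :
    (K.q - 1) * K.A (K.H m r) u v
      = (K.q - 1) * K.H (m + 1) r u v + K.up (K.Rq m r) u v := by
  have hv : v < K.N := hvu.trans hu
  have hsum : ∑ c1 ∈ range K.N, K.wt c1 v * (if c1 = u then 0 else K.H m r c1 u)
      = K.q * ∑ c ∈ Ico 0 v, K.Hlt m r c u + ∑ c ∈ Ico (v + 1) u, K.Hlt m r c u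
        + ∑ c ∈ Ico (u + 1) K.N, K.Hgt m r c u := by
    have h0 : ∀ c ∈ range K.N, K.wt c v * (if c = u then 0 else K.H m r c u)
        = if c = v then 0 else if c = u then 0 else (K.wt c v * K.H m r c u) := by
      intro c _
      by_cases h1 : c = u
      · simp [h1]
      · by_cases h2 : c = v
        · simp [h2, wt]
        · simp [h1, h2]
    rw [Finset.sum_congr rfl h0, K.sum_three hvu hu]
    congr 1
    · congr 1
      · rw [Finset.mul_sum]
        apply Finset.sum_congr rfl
        intro c hc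
        have := (mem_Ico.1 hc).2
        rw [H, if_neg (by omega), wt, if_neg (by omega), if_pos (by omega)]
      · apply Finset.sum_congr rfl
        intro c hc
        have h3 := (mem_Ico.1 hc).2
        have h4 := (mem_Ico.1 hc).1
        rw [H, if_neg (by omega), wt, if_neg (by omega), if_neg (by omega), one_mul]
    · apply Finset.sum_congr rfl
      intro c hc
      have h4 := (mem_Ico.1 hc).1
      rw [H, if_pos (by omega), wt, if_neg (by omega), if_neg (by omega), one_mul]
  rw [A, hsum, wt, if_neg hvu.ne', if_neg (by omega), H, if_pos hvu, up, if_neg (by omega),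
    K.Hgt_succ hv, Rq]
  have hmain : (K.q - 1) * (K.q * ∑ c ∈ Ico 0 v, K.Hlt m r c u
        + ∑ c ∈ Ico (v + 1) u, K.Hlt m r c u
        + ∑ c ∈ Ico (u + 1) K.N, K.Hgt m r c u)
      = ((K.q ^ (m + 1) - 1) * K.β (m + r + 2) u)
      + (K.q - 1) * (∑ i ∈ range (m / 2 + 1), K.q ^ (m + 1 - i) *
          (K.G v (m + r + 1 - i) * K.β (i + 1) u)
      + ∑ j ∈ range ((m + 1) / 2), K.q ^ (j + 1) * (K.G v (j + 1) * K.β (m + r + 1 - j) u))
      + (∑ i ∈ range (m / 2 + 1), (K.q ^ (m + r + 1) - K.q ^ (m + 2 - i))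
        * (K.e (m + r + 1 - i) * K.β (i + 1) u)
      + ∑ j ∈ range ((m + 1) / 2), (K.q ^ (m + 1) - K.q ^ (j + 2))
        * (K.e (j + 1) * K.β (m + r + 1 - j) u)) := by
    have s1 := K.sum_Hlt (Nat.zero_le v) hv.le m r u
    have s2 := K.sum_Hlt (show v + 1 ≤ u by omega) hu.le m r u
    have s3 := K.sum_Hgt hu le_rfl m r u
    have hL : (K.q - 1) * (K.q * ∑ c ∈ Ico 0 v, K.Hlt m r c u
        + ∑ c ∈ Ico (v + 1) u, K.Hlt m r c u
        + ∑ c ∈ Ico (u + 1) K.N, K.Hgt m r c u)
        = K.q * ((K.q - 1) * ∑ c ∈ Ico 0 v, K.Hlt m r c u)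
          + ((K.q - 1) * ∑ c ∈ Ico (v + 1) u, K.Hlt m r c u)
          + ((K.q - 1) * ∑ c ∈ Ico (u + 1) K.N, K.Hgt m r c u) := by ring
    rw [hL, s1, s2, s3, ← K.key hu m r]
    have e1 : ∀ (a b c d e' f : R), K.q * (a + b) + (c + d) + (e' + f)
        = (K.q * a + c + e') + (K.q * b + d + f) := by intros; ring
    have e2 : ∀ (a b c d e' f : R), (a + b) + (K.q - 1) * (c + d) + (e' + f)
        = (a + (K.q - 1) * c + e') + (b + (K.q - 1) * d + f) := by intros; ring
    rw [e1, e2]
    simp only [Finset.mul_sum, ← Finset.sum_add_distrib]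
    congr 1
    · apply Finset.sum_congr rfl
      intro i hi
      have hi' : i ≤ m := by have := mem_range.1 hi; omega
      rw [K.hPN, e]
      have h2 : K.q ^ i * K.q ^ (m + r + 1 - i) = K.q ^ (m + r + 1) := by
        rw [← pow_add]; congr 1; omega
      have h3 : K.q ^ (m + 2 - i) = K.q * K.q ^ (m + 1 - i) := by
        rw [← pow_succ']; congr 1; omega
      have h5 : m + r + 1 - i = (m + r - i) + 1 := by omega
      have h4 := K.qP_sub hv (m + r - i)
      rw [← h5] at h4
      rw [h3]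
      linear_combination (K.P 0 (m + r + 1 - i) * K.β (i + 1) u) * h2
        + (K.q ^ (m + 1 - i) * K.β (i + 1) u) * h4
    · apply Finset.sum_congr rfl
      intro j hj
      have hj3 : j ≤ m := by have := mem_range.1 hj; omega
      rw [K.hPN, e]
      have h4 := K.qP_sub hv j
      have h2 : K.q ^ (m - j) * K.q ^ (j + 1) = K.q ^ (m + 1) := by
        rw [← pow_add]; congr 1; omega
      linear_combination (K.P 0 (j + 1) * K.β (m + r + 1 - j) u) * h2
        + (K.q ^ (j + 1) * K.β (m + r + 1 - j) u) * h4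
  linear_combination (K.x v) * hmain

lemma A_H {u v : ℕ} (huv : u ≠ v) (hu : u < K.N) (hv : v < K.N) (m r : ℕ) :
    (K.q - 1) * K.A (K.H m r) u v
      = (K.q - 1) * K.H (m + 1) r u v + K.up (K.Rq m r) u v := by
  rcases lt_or_gt_of_ne huv with h | h
  · exact K.A_H_lt h hv m r
  · exact K.A_H_gt h hu m r

end Cut

end Vale.Agent.P066
end
end

section

section

set_option autoImplicit false

namespace Vale.Agent.P066

open Finset

namespace Cut

variable {R : Type*} [CommRing R] (K : Cut R)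

lemma sum_half (k : ℕ) (f : ℕ → R) :
    ∑ j ∈ range ((k + 1) / 2), f j + ∑ i ∈ range (k / 2), f (k - 1 - i) = ∑ j ∈ range k, f j := by
  have h1 : (k + 1) / 2 + k / 2 = k := by omega
  have h2 : ∑ i ∈ range (k / 2), f (k - 1 - i)
      = ∑ i ∈ range (k / 2), f ((k + 1) / 2 + i) := by
    rw [← Finset.sum_range_reflect]
    apply Finset.sum_congr rfl
    intro i hi
    have := mem_range.1 hi
    congr 1
    omega
  rw [h2, ← Finset.sum_range_add, h1]

lemma qi_zero : K.qi 0 = 0 := by simp [qi]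

/-- the balanced basis elements -/
def W (k : ℕ) (u v : ℕ) : R :=
  K.H k 0 u v - ∑ j : Fin k, K.q ^ (j.val + 1) * (K.e (j.val + 1) * W (k - 1 - j.val) u v)
termination_by k
decreasing_by have := j.isLt; omega

lemma H_eq_W (k u v : ℕ) : K.H k 0 u v
    = K.W k u v + ∑ j ∈ range k, K.q ^ (j + 1) * (K.e (j + 1) * K.W (k - 1 - j) u v) := by
  rw [W, Finset.sum_range (fun j => K.q ^ (j + 1) * (K.e (j + 1) * K.W (k - 1 - j) u v))]
  ring

lemma W_zero {u v : ℕ} (huv : u ≠ v) (hu : u < K.N) (hv : v < K.N) :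
    K.W 0 u v = K.up (K.β 1) u v := by
  have h := K.H_eq_W 0 u v
  simp only [range_zero, sum_empty, add_zero] at h
  rw [← h, H, up]
  by_cases h1 : v < u
  · rw [if_pos h1, if_neg (by omega)]
    simp [Hgt, β, K.hG0 u hu, K.hG0 v hv]
    ring
  · rw [if_neg h1, if_pos (by omega)]
    simp [Hlt, β, K.hG0 u hu, K.hG0 v hv]
    ring

lemma del_add (F F' : ℕ → ℕ → R) (u : ℕ) :
    K.del (fun a b => F a b + F' a b) u = K.del F u + K.del F' u := by
  rw [del, del, del, ← Finset.sum_add_distrib]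
  apply Finset.sum_congr rfl
  intro c _
  split_ifs <;> simp

lemma del_smul (a : R) (F : ℕ → ℕ → R) (u : ℕ) :
    K.del (fun c b => a * F c b) u = a * K.del F u := by
  rw [del, del, Finset.mul_sum]
  apply Finset.sum_congr rfl
  intro c _
  split_ifs <;> simp

lemma del_zero (u : ℕ) : K.del (fun _ _ => 0) u = 0 := by
  simp [del]

lemma del_sum {ι : Type*} (s : Finset ι) (F : ι → ℕ → ℕ → R) (u : ℕ) :
    K.del (fun a b => ∑ i ∈ s, F i a b) u = ∑ i ∈ s, K.del (F i) u := by
  classical
  induction s using Finset.induction_on with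
  | empty => simp [del]
  | insert i s hi ih =>
    simp only [Finset.sum_insert hi]
    rw [K.del_add, ih]

lemma del_congr {F F' : ℕ → ℕ → R} {u : ℕ} (h : ∀ c, c < K.N → c ≠ u → F c u = F' c u) :
    K.del F u = K.del F' u := by
  apply Finset.sum_congr rfl
  intro c hc
  split_ifs with h1
  · rfl
  · exact h c (mem_range.1 hc) h1

lemma A_add (F F' : ℕ → ℕ → R) (u v : ℕ) :
    K.A (fun a b => F a b + F' a b) u v = K.A F u v + K.A F' u v := by
  rw [A, A, A, ← mul_add, ← mul_add, ← Finset.sum_add_distrib]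
  congr 2
  apply Finset.sum_congr rfl
  intro c _
  split_ifs <;> ring

lemma A_smul (a : R) (F : ℕ → ℕ → R) (u v : ℕ) :
    K.A (fun c b => a * F c b) u v = a * K.A F u v := by
  rw [A, A]
  have : ∑ c1 ∈ range K.N, K.wt c1 v * (if c1 = u then 0 else a * F c1 u)
      = a * ∑ c1 ∈ range K.N, K.wt c1 v * (if c1 = u then 0 else F c1 u) := by
    rw [Finset.mul_sum]
    apply Finset.sum_congr rfl
    intro c _
    split_ifs <;> ring
  rw [this]; ring

lemma A_zero (u v : ℕ) : K.A (fun _ _ => 0) u v = 0 := by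
  simp [A]

lemma A_sum {ι : Type*} (s : Finset ι) (F : ι → ℕ → ℕ → R) (u v : ℕ) :
    K.A (fun a b => ∑ i ∈ s, F i a b) u v = ∑ i ∈ s, K.A (F i) u v := by
  classical
  induction s using Finset.induction_on with
  | empty => simp [A]
  | insert i s hi ih =>
    simp only [Finset.sum_insert hi]
    rw [K.A_add, ih]

lemma A_congr {F F' : ℕ → ℕ → R} {u v : ℕ} (h : ∀ c, c < K.N → c ≠ u → F c u = F' c u) :
    K.A F u v = K.A F' u v := by
  rw [A, A]
  congr 2
  apply Finset.sum_congr rfl
  intro c hc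
  split_ifs with h1
  · rfl
  · rw [h c (mem_range.1 hc) h1]

lemma up_add (f f' : ℕ → R) (u v : ℕ) :
    K.up (fun a => f a + f' a) u v = K.up f u v + K.up f' u v := by
  simp only [up]; ring

lemma up_smul (a : R) (f : ℕ → R) (u v : ℕ) :
    K.up (fun c => a * f c) u v = a * K.up f u v := by
  simp only [up]; ring

section regular

variable (hq : ∀ a b : R, (K.q - 1) * a = (K.q - 1) * b → a = b)

include hq

lemma del_H' {u : ℕ} (hu : u < K.N) (m r : ℕ) :
    K.del (K.H m r) u = K.qi (m + 1) * K.β (m + r + 2) u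
        + ∑ i ∈ range (m / 2 + 1), K.q ^ (m + 1 - i) * K.qi (r + i)
            * (K.e (m + r + 1 - i) * K.β (i + 1) u)
        + ∑ j ∈ range ((m + 1) / 2), K.q ^ (j + 1) * K.qi (m - j)
            * (K.e (j + 1) * K.β (m + r + 1 - j) u) :=
  hq _ _ (K.del_H hu m r)

lemma del_W {u : ℕ} (hu : u < K.N) (k : ℕ) :
    K.del (K.W k) u = K.qi (k + 1) * K.β (k + 2) u := by
  induction k using Nat.strong_induction_on with
  | _ k ih =>
    have h1 := K.del_H' hq hu k 0
    have h2 : K.del (K.H k 0) u = K.del (K.W k) u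
        + ∑ j ∈ range k, K.q ^ (j + 1) * (K.e (j + 1) * K.del (K.W (k - 1 - j)) u) := by
      have h3 : K.H k 0 = fun a b => K.W k a b
          + ∑ j ∈ range k, K.q ^ (j + 1) * (K.e (j + 1) * K.W (k - 1 - j) a b) := by
        funext a b; exact K.H_eq_W k a b
      rw [h3, K.del_add, K.del_sum]
      congr 1
      apply Finset.sum_congr rfl
      intro j _
      rw [K.del_smul, K.del_smul]
    have h4 : ∑ j ∈ range k, K.q ^ (j + 1) * (K.e (j + 1) * K.del (K.W (k - 1 - j)) u)
        = ∑ j ∈ range k, K.q ^ (j + 1) * K.qi (k - j) * (K.e (j + 1) * K.β (k + 1 - j) u) := by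
      apply Finset.sum_congr rfl
      intro j hj
      have hj := mem_range.1 hj
      rw [ih (k - 1 - j) (by omega)]
      have e1 : k - 1 - j + 1 = k - j := by omega
      have e2 : k - 1 - j + 2 = k + 1 - j := by omega
      rw [e1, e2]; ring
    rw [h4, ← sum_half k] at h2
    rw [Finset.sum_range_succ'] at h1
    have h5 : ∑ i ∈ range (k / 2), K.q ^ (k + 1 - (i + 1)) * K.qi (0 + (i + 1))
            * (K.e (k + 0 + 1 - (i + 1)) * K.β (i + 1 + 1) u)
        = ∑ i ∈ range (k / 2), K.q ^ (k - 1 - i + 1) * K.qi (k - (k - 1 - i))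
            * (K.e (k - 1 - i + 1) * K.β (k + 1 - (k - 1 - i)) u) := by
      apply Finset.sum_congr rfl
      intro i hi
      have hi := mem_range.1 hi
      have e1 : k + 1 - (i + 1) = k - 1 - i + 1 := by omega
      have e2 : 0 + (i + 1) = k - (k - 1 - i) := by omega
      have e4 : i + 1 + 1 = k + 1 - (k - 1 - i) := by omega
      rw [e1, e2, e4]
    have h6 : ∀ j ∈ range ((k + 1) / 2), K.q ^ (j + 1) * K.qi (k - j)
            * (K.e (j + 1) * K.β (k + 0 + 1 - j) u)
        = K.q ^ (j + 1) * K.qi (k - j) * (K.e (j + 1) * K.β (k + 1 - j) u) := by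
      intro j _
      rfl
    rw [h5, Finset.sum_congr rfl h6] at h1
    have h7 : K.qi (0 + 0) = 0 := K.qi_zero
    rw [h7] at h1
    rw [h2] at h1
    simp only [Nat.add_zero] at h1
    linear_combination h1

/-- the positive remainder in `A H_m = H_{m+1} + d_+ R_m` (bidegree `r + 1`) -/
def Rem (m r u : ℕ) : R :=
  K.q * K.qi m * K.β (m + r + 3) u
    + ∑ i ∈ range (m / 2 + 1), K.q ^ (m + 2 - i) * K.qi (r + i)
        * (K.e (m + r + 2 - i) * K.β (i + 1) u)
    + ∑ j ∈ range ((m + 1) / 2), K.q ^ (j + 2) * K.qi (m - 1 - j)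
        * (K.e (j + 1) * K.β (m + r + 2 - j) u)

omit hq in
lemma Rq_succ (m r u : ℕ) : K.Rq m (r + 1) u = (K.q - 1) * K.Rem m r u := by
  rw [Rq, Rem, mul_add, mul_add, Finset.mul_sum, Finset.mul_sum]
  congr 1
  · congr 1
    · have : (K.q - 1) * (K.q * K.qi m * K.β (m + r + 3) u)
        = K.q * ((K.q - 1) * K.qi m) * K.β (m + r + 3) u := by ring
      rw [this, K.qi_mul]
      have e1 : m + (r + 1) + 2 = m + r + 3 := by omega
      rw [e1]; ring
    · apply Finset.sum_congr rfl
      intro i hi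
      have hi' : i ≤ m := by have := mem_range.1 hi; omega
      have : (K.q - 1) * (K.q ^ (m + 2 - i) * K.qi (r + i)
        * (K.e (m + r + 2 - i) * K.β (i + 1) u))
        = K.q ^ (m + 2 - i) * ((K.q - 1) * K.qi (r + i))
        * (K.e (m + r + 2 - i) * K.β (i + 1) u) := by ring
      rw [this, K.qi_mul]
      have e1 : m + (r + 1) + 1 - i = m + r + 2 - i := by omega
      have e2 : K.q ^ (m + (r + 1) + 1) = K.q ^ (m + 2 - i) * K.q ^ (r + i) := by
        rw [← pow_add]; congr 1; omega
      rw [e1, e2]; ring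
  · apply Finset.sum_congr rfl
    intro j hj
    have hj' : j + 1 ≤ m := by have := mem_range.1 hj; omega
    have : (K.q - 1) * (K.q ^ (j + 2) * K.qi (m - 1 - j)
        * (K.e (j + 1) * K.β (m + r + 2 - j) u))
        = K.q ^ (j + 2) * ((K.q - 1) * K.qi (m - 1 - j))
        * (K.e (j + 1) * K.β (m + r + 2 - j) u) := by ring
    rw [this, K.qi_mul]
    have e1 : m + (r + 1) + 1 - j = m + r + 2 - j := by omega
    have e2 : K.q ^ (m + 1) = K.q ^ (j + 2) * K.q ^ (m - 1 - j) := by
      rw [← pow_add]; congr 1; omega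
    rw [e1, e2]; ring

lemma A_H_succ {u v : ℕ} (huv : u ≠ v) (hu : u < K.N) (hv : v < K.N) (m r : ℕ) :
    K.A (K.H m (r + 1)) u v = K.H (m + 1) (r + 1) u v + K.up (K.Rem m r) u v := by
  apply hq
  rw [K.A_H huv hu hv, mul_add]
  congr 1
  simp only [up, K.Rq_succ]
  ring

omit hq in
lemma Rq_zero (k u : ℕ) : K.Rq k 0 u = (K.q - 1) * (K.q * K.qi k * K.β (k + 2) u
    - K.q ^ (k + 1) * (K.e (k + 1) * K.β 1 u)
    + ∑ j ∈ range k, K.q ^ (j + 2) * K.qi (k - 1 - j) * (K.e (j + 1) * K.β (k + 1 - j) u)) := by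
  rw [← sum_half k, Rq, Finset.sum_range_succ']
  have h5 : ∑ i ∈ range (k / 2), (K.q ^ (k + 0 + 1) - K.q ^ (k + 2 - (i + 1)))
            * (K.e (k + 0 + 1 - (i + 1)) * K.β (i + 1 + 1) u)
        = (K.q - 1) * ∑ i ∈ range (k / 2), K.q ^ (k - 1 - i + 2) * K.qi (k - 1 - (k - 1 - i))
            * (K.e (k - 1 - i + 1) * K.β (k + 1 - (k - 1 - i)) u) := by
    rw [Finset.mul_sum]
    apply Finset.sum_congr rfl
    intro i hi
    have hi := mem_range.1 hi
    have e1 : k + 2 - (i + 1) = k - 1 - i + 2 := by omega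
    have e2 : k - 1 - (k - 1 - i) = i := by omega
    have e3 : k + 0 + 1 - (i + 1) = k - 1 - i + 1 := by omega
    have e4 : i + 1 + 1 = k + 1 - (k - 1 - i) := by omega
    have e5 : K.q ^ (k + 0 + 1) = K.q ^ (k - 1 - i + 2) * K.q ^ i := by
      rw [← pow_add]; congr 1; omega
    have : ∀ (a b c d : R), (K.q - 1) * (a * b * (c * d)) = a * ((K.q - 1) * b) * (c * d) := by
      intros; ring
    rw [this, e2, K.qi_mul, e1, e3, e5, ← e4]; ring
  have h6 : ∑ j ∈ range ((k + 1) / 2), (K.q ^ (k + 1) - K.q ^ (j + 2))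
        * (K.e (j + 1) * K.β (k + 0 + 1 - j) u)
      = (K.q - 1) * ∑ j ∈ range ((k + 1) / 2), K.q ^ (j + 2) * K.qi (k - 1 - j)
        * (K.e (j + 1) * K.β (k + 1 - j) u) := by
    rw [Finset.mul_sum]
    apply Finset.sum_congr rfl
    intro j hj
    have hj' : j + 1 ≤ k := by have := mem_range.1 hj; omega
    have : ∀ (a b c d : R), (K.q - 1) * (a * b * (c * d)) = a * ((K.q - 1) * b) * (c * d) := by
      intros; ring
    have e2 : K.q ^ (k + 1) = K.q ^ (j + 2) * K.q ^ (k - 1 - j) := by
      rw [← pow_add]; congr 1; omega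
    rw [this, K.qi_mul, e2]
    simp only [Nat.add_zero]
    ring
  rw [h5, h6]
  have h8 := K.qi_mul k
  have e9 : k + 0 + 2 = k + 2 := rfl
  have e10 : k + 2 - 0 = k + 2 := rfl
  have e11 : k + 0 + 1 - 0 = k + 1 := rfl
  rw [e9, e10, e11]
  linear_combination (-K.q * K.β (k + 2) u) * h8

lemma A_H_zero {u v : ℕ} (huv : u ≠ v) (hu : u < K.N) (hv : v < K.N) (k : ℕ) :
    K.A (K.H k 0) u v = K.H (k + 1) 0 u v + K.up (fun c => K.q * K.qi k * K.β (k + 2) c
    - K.q ^ (k + 1) * (K.e (k + 1) * K.β 1 c)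
    + ∑ j ∈ range k, K.q ^ (j + 2) * K.qi (k - 1 - j) *
        (K.e (j + 1) * K.β (k + 1 - j) c)) u v := by
  apply hq
  rw [K.A_H huv hu hv, mul_add]
  congr 1
  simp only [up, K.Rq_zero]
  ring

lemma A_W {u v : ℕ} (huv : u ≠ v) (hu : u < K.N) (hv : v < K.N) (k : ℕ) :
    K.A (K.W k) u v = K.W (k + 1) u v + K.up (fun c => K.q * K.qi k * K.β (k + 2) c) u v := by
  induction k using Nat.strong_induction_on with
  | _ k ih =>
    have h1 := K.A_H_zero hq huv hu hv k
    have h2 : K.A (K.H k 0) u v = K.A (K.W k) u v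
        + ∑ j ∈ range k, K.q ^ (j + 1) * (K.e (j + 1) * K.A (K.W (k - 1 - j)) u v) := by
      have h3 : K.H k 0 = fun a b => K.W k a b
          + ∑ j ∈ range k, K.q ^ (j + 1) * (K.e (j + 1) * K.W (k - 1 - j) a b) := by
        funext a b; exact K.H_eq_W k a b
      rw [h3, K.A_add, K.A_sum]
      congr 1
      apply Finset.sum_congr rfl
      intro j _
      rw [K.A_smul, K.A_smul]
    have h4 : ∑ j ∈ range k, K.q ^ (j + 1) * (K.e (j + 1) * K.A (K.W (k - 1 - j)) u v)
        = ∑ j ∈ range k, K.q ^ (j + 1) * (K.e (j + 1) * K.W (k - j) u v)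
          + K.up (fun c => ∑ j ∈ range k, K.q ^ (j + 2) * K.qi (k - 1 - j) *
              (K.e (j + 1) * K.β (k + 1 - j) c)) u v := by
      have h5 : K.up (fun c => ∑ j ∈ range k, K.q ^ (j + 2) * K.qi (k - 1 - j) *
              (K.e (j + 1) * K.β (k + 1 - j) c)) u v
          = ∑ j ∈ range k, K.q ^ (j + 2) * K.qi (k - 1 - j) *
              (K.e (j + 1) * K.up (K.β (k + 1 - j)) u v) := by
        simp only [up, Finset.mul_sum]
        apply Finset.sum_congr rfl
        intro j _
        ring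
      rw [h5, ← Finset.sum_add_distrib]
      apply Finset.sum_congr rfl
      intro j hj
      have hj := mem_range.1 hj
      rw [ih (k - 1 - j) (by omega)]
      have e1 : k - 1 - j + 1 = k - j := by omega
      have e2 : k - 1 - j + 2 = k + 1 - j := by omega
      rw [e1, e2]
      simp only [up]
      ring
    have h6 := K.H_eq_W (k + 1) u v
    rw [Finset.sum_range_succ] at h6
    have e3 : k + 1 - 1 - k = 0 := by omega
    rw [e3, K.W_zero huv hu hv] at h6
    have h7 : ∀ j ∈ range k, K.q ^ (j + 1) * (K.e (j + 1) * K.W (k + 1 - 1 - j) u v)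
        = K.q ^ (j + 1) * (K.e (j + 1) * K.W (k - j) u v) := by
      intro j _
      rfl
    rw [Finset.sum_congr rfl h7] at h6
    rw [h2, h4, h6] at h1
    have h8 : K.up (fun c => K.q * K.qi k * K.β (k + 2) c
        - K.q ^ (k + 1) * (K.e (k + 1) * K.β 1 c)
        + ∑ j ∈ range k, K.q ^ (j + 2) * K.qi (k - 1 - j) *
        (K.e (j + 1) * K.β (k + 1 - j) c)) u v
        = K.up (fun c => K.q * K.qi k * K.β (k + 2) c) u v
        - K.q ^ (k + 1) * (K.e (k + 1) * K.up (K.β 1) u v)
        + K.up (fun c => ∑ j ∈ range k, K.q ^ (j + 2) * K.qi (k - 1 - j) *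
              (K.e (j + 1) * K.β (k + 1 - j) c)) u v := by
      simp only [up]; ring
    rw [h8] at h1
    linear_combination h1

lemma sum_β (a : ℕ) : ∑ c ∈ range K.N, K.β (a + 1) c = K.qi (a + 1) * K.e (a + 1) := by
  apply hq
  have := K.tele (Nat.zero_le K.N) le_rfl a
  rw [← Finset.range_eq_Ico] at this
  rw [this, K.hPN, ← mul_assoc, K.qi_mul, e]
  ring

omit hq in
lemma up_β {u v : ℕ} (huv : u ≠ v) (hv : v < K.N) (k : ℕ) :
    K.up (K.β (k + 1)) u v = K.H 0 k u v := by
  rw [H, up]
  by_cases h1 : v < u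
  · rw [if_pos h1, if_neg (by omega)]
    simp [Hgt, β, K.hG0 v hv]
    ring
  · rw [if_neg h1, if_pos (by omega)]
    simp [Hlt, β, K.hG0 v hv]
    ring

end regular

end Cut

end Vale.Agent.P066
end
end

section

section

set_option autoImplicit false

namespace Vale.Agent.P066

open Finset

variable {R : Type*} [CommRing R] (K : ℕ → Cut R)

/-- families (indexed by the number of colours) that are `ℕ[q]`-combinations of products of
elementary symmetric functions, of total degree `d` -/
inductive Lam : ℕ → (ℕ → R) → Prop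
  | one : Lam 0 (fun _ => 1)
  | zero (d : ℕ) : Lam d (fun _ => 0)
  | add {d : ℕ} {a b : ℕ → R} : Lam d a → Lam d b → Lam d (fun N => a N + b N)
  | mulq {d : ℕ} {a : ℕ → R} : Lam d a → Lam d (fun N => (K N).q * a N)
  | mule {d : ℕ} {a : ℕ → R} (k : ℕ) : Lam d a → Lam (d + (k + 1)) (fun N => (K N).e (k + 1) * a N)

variable {K}

lemma Lam.of_eq {d d' : ℕ} {a b : ℕ → R} (h : Lam K d a) (hd : d = d') (hab : ∀ N, a N = b N) :
    Lam K d' b := by
  subst hd
  have : a = b := funext hab
  rwa [← this]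

lemma Lam.mul {d d' : ℕ} {a b : ℕ → R} (ha : Lam K d a) (hb : Lam K d' b) :
    Lam K (d + d') (fun N => a N * b N) := by
  induction ha with
  | one => exact hb.of_eq (by omega) (fun N => by ring)
  | zero d => exact (Lam.zero _).of_eq rfl (fun N => by ring)
  | add _ _ iha ihb => exact (iha.add ihb).of_eq rfl (fun N => by ring)
  | mulq _ ih => exact ih.mulq.of_eq rfl (fun N => by ring)
  | mule k _ ih => exact (ih.mule k).of_eq (by omega) (fun N => by ring)

lemma Lam.sum {ι : Type*} {d : ℕ} (s : Finset ι) (a : ι → ℕ → R) (h : ∀ i ∈ s, Lam K d (a i)) :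
    Lam K d (fun N => ∑ i ∈ s, a i N) := by
  classical
  induction s using Finset.induction_on with
  | empty => exact (Lam.zero d).of_eq rfl (fun N => by simp)
  | insert i s hi ih =>
    have h1 := h i (Finset.mem_insert_self i s)
    have h2 := ih (fun j hj => h j (Finset.mem_insert_of_mem hj))
    exact (h1.add h2).of_eq rfl (fun N => by rw [Finset.sum_insert hi])

lemma Lam.qpow (n : ℕ) : Lam K 0 (fun N => (K N).q ^ n) := by
  induction n with
  | zero => exact Lam.one.of_eq rfl (fun N => by simp)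
  | succ n ih => exact ih.mulq.of_eq rfl (fun N => by ring)

lemma Lam.qi (n : ℕ) : Lam K 0 (fun N => (K N).qi n) := by
  simp only [Cut.qi]
  exact Lam.sum _ _ (fun i _ => Lam.qpow i)

lemma Lam.e (k : ℕ) : Lam K (k + 1) (fun N => (K N).e (k + 1)) :=
  (Lam.one.mule k).of_eq (by omega) (fun N => by ring)

variable (K)

/-- the positive cone of functions of one active colour -/
inductive Cone1 : ℕ → (ℕ → ℕ → R) → Prop
  | zero (D : ℕ) : Cone1 D (fun _ _ => 0)
  | add {D : ℕ} {f g : ℕ → ℕ → R} : Cone1 D f → Cone1 D g → Cone1 D (fun N c => f N c + g N c)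
  | base {D d : ℕ} {a : ℕ → R} (k : ℕ) (hD : D = d + (k + 1)) (ha : Lam K d a) :
      Cone1 D (fun N c => a N * (K N).β (k + 1) c)
  | congr {D : ℕ} {f g : ℕ → ℕ → R} : Cone1 D f →
      (∀ N c, c < (K N).N → f N c = g N c) → Cone1 D g

/-- the positive cone of functions of two active colours -/
inductive Cone2 : ℕ → (ℕ → ℕ → ℕ → R) → Prop
  | zero (D : ℕ) : Cone2 D (fun _ _ _ => 0)
  | add {D : ℕ} {f g : ℕ → ℕ → ℕ → R} : Cone2 D f → Cone2 D g →
      Cone2 D (fun N u v => f N u v + g N u v)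
  | baseH {D d : ℕ} {a : ℕ → R} (m r : ℕ) (hD : D = d + (m + r + 3)) (ha : Lam K d a) :
      Cone2 D (fun N u v => a N * (K N).H m (r + 1) u v)
  | baseW {D d : ℕ} {a : ℕ → R} (k : ℕ) (hD : D = d + (k + 2)) (ha : Lam K d a) :
      Cone2 D (fun N u v => a N * (K N).W k u v)
  | congr {D : ℕ} {f g : ℕ → ℕ → ℕ → R} : Cone2 D f →
      (∀ N u v, u < (K N).N → v < (K N).N → u ≠ v → f N u v = g N u v) → Cone2 D g

variable {K}

lemma Cone1.smul {D d : ℕ} {a : ℕ → R} {f : ℕ → ℕ → R} (ha : Lam K d a) (hf : Cone1 K D f) :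
    Cone1 K (d + D) (fun N c => a N * f N c) := by
  induction hf with
  | zero => exact (Cone1.zero _).congr (fun N c _ => by ring)
  | add _ _ ih1 ih2 => exact (ih1.add ih2).congr (fun N c _ => by ring)
  | base k hD hb => exact (Cone1.base k (by omega) (ha.mul hb)).congr (fun N c _ => by ring)
  | congr _ h ih => exact ih.congr (fun N c hc => by rw [h N c hc])

lemma Cone1.of_eq {D D' : ℕ} {f g : ℕ → ℕ → R} (hf : Cone1 K D f) (hD : D = D')
    (h : ∀ N c, c < (K N).N → f N c = g N c) : Cone1 K D' g := by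
  subst hD
  exact hf.congr h

lemma Cone2.of_eq {D D' : ℕ} {f g : ℕ → ℕ → ℕ → R} (hf : Cone2 K D f) (hD : D = D')
    (h : ∀ N u v, u < (K N).N → v < (K N).N → u ≠ v → f N u v = g N u v) : Cone2 K D' g := by
  subst hD
  exact hf.congr h

lemma Cone2.smul {D d : ℕ} {a : ℕ → R} {f : ℕ → ℕ → ℕ → R} (ha : Lam K d a)
    (hf : Cone2 K D f) : Cone2 K (d + D) (fun N u v => a N * f N u v) := by
  induction hf with
  | zero => exact (Cone2.zero _).congr (fun N u v _ _ _ => by ring)
  | add _ _ ih1 ih2 => exact (ih1.add ih2).congr (fun N u v _ _ _ => by ring)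
  | baseH m r hD hb =>
    exact (Cone2.baseH m r (by omega) (ha.mul hb)).congr (fun N u v _ _ _ => by ring)
  | baseW k hD hb =>
    exact (Cone2.baseW k (by omega) (ha.mul hb)).congr (fun N u v _ _ _ => by ring)
  | congr _ h ih => exact ih.congr (fun N u v hu hv huv => by rw [h N u v hu hv huv])

lemma Cone1.sum {ι : Type*} {D : ℕ} (s : Finset ι) (f : ι → ℕ → ℕ → R)
    (h : ∀ i ∈ s, Cone1 K D (f i)) : Cone1 K D (fun N c => ∑ i ∈ s, f i N c) := by
  classical
  induction s using Finset.induction_on with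
  | empty => exact (Cone1.zero D).congr (fun N c _ => by simp)
  | insert i s hi ih =>
    have h1 := h i (Finset.mem_insert_self i s)
    have h2 := ih (fun j hj => h j (Finset.mem_insert_of_mem hj))
    exact (h1.add h2).congr (fun N c _ => by rw [Finset.sum_insert hi])

lemma Cone1.beta (k : ℕ) : Cone1 K (k + 1) (fun N c => (K N).β (k + 1) c) :=
  (Cone1.base (d := 0) k (by omega) Lam.one).congr (fun N c _ => by ring)

lemma Cone2.Hm (m r : ℕ) : Cone2 K (m + r + 3) (fun N u v => (K N).H m (r + 1) u v) :=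
  (Cone2.baseH (d := 0) m r (by omega) Lam.one).congr (fun N u v _ _ _ => by ring)

lemma Cone2.Wk (k : ℕ) : Cone2 K (k + 2) (fun N u v => (K N).W k u v) :=
  (Cone2.baseW (d := 0) k (by omega) Lam.one).congr (fun N u v _ _ _ => by ring)

/-- add an isolated vertex -/
lemma Lam.new {d : ℕ} {a : ℕ → R} (ha : Lam K d a) :
    Cone1 K (d + 1) (fun N c => a N * (K N).x c) :=
  (Cone1.base 0 rfl ha).congr (fun N c hc => by rw [zero_add, Cut.β_succ, (K N).hG0 c hc, mul_one])

section
variable (hq : ∀ N, ∀ a b : R, ((K N).q - 1) * a = ((K N).q - 1) * b → a = b)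
include hq

lemma Cone1.total {D : ℕ} {f : ℕ → ℕ → R} (hf : Cone1 K D f) :
    Lam K D (fun N => ∑ c ∈ range (K N).N, f N c) := by
  induction hf with
  | zero => exact (Lam.zero _).of_eq rfl (fun N => by simp)
  | add _ _ ih1 ih2 => exact (ih1.add ih2).of_eq rfl (fun N => by rw [Finset.sum_add_distrib])
  | base k hD ha =>
    refine ((ha.mul (Lam.qi (k + 1))).mul (Lam.e k)).of_eq (by omega) (fun N => ?_)
    rw [← Finset.mul_sum, (K N).sum_β (hq N)]
    ring
  | congr _ h ih =>
    exact ih.of_eq rfl (fun N => Finset.sum_congr rfl (fun c hc => h N c (mem_range.1 hc)))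

lemma Cone2.del {D : ℕ} {F : ℕ → ℕ → ℕ → R} (hF : Cone2 K D F) :
    Cone1 K D (fun N => (K N).del (F N)) := by
  induction hF with
  | zero => exact (Cone1.zero D).congr (fun N c _ => by rw [Cut.del_zero])
  | add _ _ ih1 ih2 => exact (ih1.add ih2).congr (fun N c _ => by rw [← Cut.del_add])
  | @baseH d a m r hD ha =>
    have h1 : Cone1 K (m + r + 3) (fun N u => (K N).qi (m + 1) * (K N).β (m + r + 3) u) :=
      ((Cone1.beta (m + r + 2)).smul (Lam.qi (m + 1))).of_eq (by omega) (fun N c _ => rfl)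
    have h2 : Cone1 K (m + r + 3) (fun N u => ∑ i ∈ range (m / 2 + 1),
        (K N).q ^ (m + 1 - i) * (K N).qi (r + 1 + i)
            * ((K N).e (m + r + 2 - i) * (K N).β (i + 1) u)) := by
      apply Cone1.sum
      intro i hi
      have hi' : i ≤ m := by have := mem_range.1 hi; omega
      have e1 : m + r + 2 - i = (m + r + 1 - i) + 1 := by omega
      rw [e1]
      exact ((Cone1.beta i).smul (((Lam.qpow (m + 1 - i)).mul (Lam.qi (r + 1 + i))).mul
        (Lam.e (m + r + 1 - i)))).of_eq (by omega) (fun N c _ => by ring)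
    have h3 : Cone1 K (m + r + 3) (fun N u => ∑ j ∈ range ((m + 1) / 2),
        (K N).q ^ (j + 1) * (K N).qi (m - j)
            * ((K N).e (j + 1) * (K N).β (m + r + 2 - j) u)) := by
      apply Cone1.sum
      intro j hj
      have hj' : j ≤ m := by have := mem_range.1 hj; omega
      have e1 : m + r + 2 - j = (m + r + 1 - j) + 1 := by omega
      rw [e1]
      exact ((Cone1.beta (m + r + 1 - j)).smul (((Lam.qpow (j + 1)).mul (Lam.qi (m - j))).mul
        (Lam.e j))).of_eq (by omega) (fun N c _ => by ring)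
    refine ((((h1.add h2).add h3).smul ha)).of_eq (by omega) (fun N c hc => ?_)
    rw [Cut.del_smul, (K N).del_H' (hq N) hc]
    rfl
  | @baseW d a k hD ha =>
    have h1 : Cone1 K (k + 2) (fun N u => (K N).qi (k + 1) * (K N).β (k + 2) u) :=
      ((Cone1.beta (k + 1)).smul (Lam.qi (k + 1))).of_eq (by omega) (fun N c _ => rfl)
    refine (h1.smul ha).of_eq (by omega) (fun N c hc => ?_)
    rw [Cut.del_smul, (K N).del_W (hq N) hc]
  | @congr f g _ h ih =>
    refine ih.congr (fun N c hc => Cut.del_congr _ ?_)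
    intro c' hc' hne
    exact h N c' c hc' hc hne

omit hq in
lemma Cone1.up {D : ℕ} {f : ℕ → ℕ → R} (hf : Cone1 K D f) :
    Cone2 K (D + 1) (fun N => (K N).up (f N)) := by
  induction hf with
  | zero => exact (Cone2.zero _).congr (fun N u v _ _ _ => by simp [Cut.up])
  | add _ _ ih1 ih2 => exact (ih1.add ih2).congr (fun N u v _ _ _ => by rw [← Cut.up_add])
  | @base d a k hD ha =>
    rcases k with _ | k
    · refine ((Cone2.Wk 0).smul ha).of_eq (by omega) (fun N u v hu hv huv => ?_)
      rw [Cut.up_smul, Cut.W_zero _ huv hu hv]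
    · refine ((Cone2.Hm 0 k).smul ha).of_eq (by omega) (fun N u v hu hv huv => ?_)
      rw [Cut.up_smul, Cut.up_β _ huv hv]
  | @congr f g _ h ih =>
    refine ih.congr (fun N u v hu hv huv => ?_)
    simp only [Cut.up, h N u hu]

lemma Cone2.step {D : ℕ} {F : ℕ → ℕ → ℕ → R} (hF : Cone2 K D F) :
    Cone2 K (D + 1) (fun N => (K N).A (F N)) := by
  induction hF with
  | zero => exact (Cone2.zero _).congr (fun N u v _ _ _ => by rw [Cut.A_zero])
  | add _ _ ih1 ih2 => exact (ih1.add ih2).congr (fun N u v _ _ _ => by rw [← Cut.A_add])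
  | @baseH d a m r hD ha =>
    have h1 : Cone1 K (m + r + 3) (fun N u => (K N).q * (K N).qi m * (K N).β (m + r + 3) u) :=
      ((Cone1.beta (m + r + 2)).smul ((Lam.qpow 1).mul (Lam.qi m))).of_eq (by omega)
        (fun N c _ => by ring)
    have h2 : Cone1 K (m + r + 3) (fun N u => ∑ i ∈ range (m / 2 + 1),
        (K N).q ^ (m + 2 - i) * (K N).qi (r + i)
            * ((K N).e (m + r + 2 - i) * (K N).β (i + 1) u)) := by
      apply Cone1.sum
      intro i hi
      have hi' : i ≤ m := by have := mem_range.1 hi; omega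
      have e1 : m + r + 2 - i = (m + r + 1 - i) + 1 := by omega
      rw [e1]
      exact ((Cone1.beta i).smul (((Lam.qpow (m + 2 - i)).mul (Lam.qi (r + i))).mul
        (Lam.e (m + r + 1 - i)))).of_eq (by omega) (fun N c _ => by ring)
    have h3 : Cone1 K (m + r + 3) (fun N u => ∑ j ∈ range ((m + 1) / 2),
        (K N).q ^ (j + 2) * (K N).qi (m - 1 - j)
            * ((K N).e (j + 1) * (K N).β (m + r + 2 - j) u)) := by
      apply Cone1.sum
      intro j hj
      have hj' : j ≤ m := by have := mem_range.1 hj; omega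
      have e1 : m + r + 2 - j = (m + r + 1 - j) + 1 := by omega
      rw [e1]
      exact ((Cone1.beta (m + r + 1 - j)).smul (((Lam.qpow (j + 2)).mul (Lam.qi (m - 1 - j))).mul
        (Lam.e j))).of_eq (by omega) (fun N c _ => by ring)
    have h4 := (((Cone2.Hm (m + 1) r).of_eq (D' := m + r + 3 + 1) (by omega)
      (fun N u v _ _ _ => rfl)).add (((h1.add h2).add h3).up)).smul ha
    refine h4.of_eq (by omega) (fun N u v hu hv huv => ?_)
    rw [Cut.A_smul, (K N).A_H_succ (hq N) huv hu hv]
    rfl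
  | @baseW d a k hD ha =>
    have h1 : Cone1 K (k + 2) (fun N u => (K N).q * (K N).qi k * (K N).β (k + 2) u) :=
      ((Cone1.beta (k + 1)).smul ((Lam.qpow 1).mul (Lam.qi k))).of_eq (by omega)
        (fun N c _ => by ring)
    have h4 := (((Cone2.Wk (k + 1)).of_eq (D' := k + 2 + 1) (by omega)
      (fun N u v _ _ _ => rfl)).add h1.up).smul ha
    refine h4.of_eq (by omega) (fun N u v hu hv huv => ?_)
    rw [Cut.A_smul, (K N).A_W (hq N) huv hu hv]
  | @congr f g _ h ih =>
    refine ih.congr (fun N u v hu hv huv => Cut.A_congr _ ?_)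
    intro c' hc' hne
    exact h N c' u hc' hu hne

end

end Vale.Agent.P066
end
end

section

section

set_option autoImplicit false

namespace Vale.Agent.P066

open Finset

section concrete

variable {R : Type*} [CommRing R] (q : R) (x : ℕ → R)

/-- the linear polynomial `1 + a z` -/
noncomputable def lin (a : R) : Polynomial R := 1 + Polynomial.C a * Polynomial.X

lemma coeff_lin_mul (a : R) (p : Polynomial R) (k : ℕ) :
    (lin a * p).coeff (k + 1) = p.coeff (k + 1) + a * p.coeff k := by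
  rw [lin, add_mul, one_mul, mul_assoc, Polynomial.coeff_add, Polynomial.coeff_C_mul,
    mul_comm Polynomial.X p, Polynomial.coeff_mul_X]

lemma eval_prod_lin (s : Finset ℕ) (f : ℕ → R) :
    (∏ i ∈ s, lin (f i)).eval 0 = 1 := by
  rw [Polynomial.eval_prod]
  apply Finset.prod_eq_one
  intro i _
  simp [lin]

/-- the concrete colour data with `N` colours -/
noncomputable def mkCut (N : ℕ) : Cut R where
  N := N
  x := x
  q := q
  P t a := ((∏ s ∈ range t, lin (q * x s)) * ∏ s ∈ Ico t N, lin (x s)).coeff a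
  G c a := ((∏ s ∈ range c, lin (q * x s)) * ∏ s ∈ Ico (c + 1) N, lin (x s)).coeff a
  hG0 c _ := by
    rw [Polynomial.coeff_zero_eq_eval_zero, Polynomial.eval_mul, eval_prod_lin, eval_prod_lin,
      one_mul]
  hP c hc a := by
    rw [Finset.prod_eq_prod_Ico_succ_bot hc, mul_left_comm, coeff_lin_mul]
  hP' c _ a := by
    rw [Finset.prod_range_succ, mul_comm (∏ s ∈ range c, lin (q * x s)) _, mul_assoc,
      coeff_lin_mul]
  hPN a := by
    have h1 : ∀ b : R, lin (q * b) = (lin b).comp (Polynomial.C q * Polynomial.X) := by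
      intro b
      simp only [lin, Polynomial.add_comp, Polynomial.one_comp, Polynomial.mul_comp,
        Polynomial.C_comp, Polynomial.X_comp, Polynomial.C_mul]
      ring
    rw [Finset.Ico_self, Finset.prod_empty, mul_one, Finset.range_zero, Finset.prod_empty,
      one_mul, ← Finset.range_eq_Ico]
    simp only [h1]
    rw [← Polynomial.prod_comp, Polynomial.comp_C_mul_X_coeff, mul_comm]

end concrete

section sums

variable {R : Type*} [CommRing R] (K : Cut R) (d : ℕ → ℕ)

/-- weight of a colouring of the first `n` vertices, vertex `b` being adjacent to the `d b`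
preceding vertices -/
def wgt : (n : ℕ) → (Fin n → Fin K.N) → R
  | 0, _ => 1
  | n + 1, f => wgt n (Fin.init f) * (K.x (f (Fin.last n)) *
      ∏ a : Fin n, if n ≤ a.val + d n then K.wt (f a.castSucc) (f (Fin.last n)) else 1)

def tot (n : ℕ) : R := ∑ f : Fin n → Fin K.N, wgt K d n f

def s1 (n c : ℕ) : R :=
  ∑ f : Fin (n + 1) → Fin K.N, if (f (Fin.last n)).val = c then wgt K d (n + 1) f else 0

def s2 (n u v : ℕ) : R :=
  ∑ f : Fin (n + 2) → Fin K.N,
    if (f (Fin.last n).castSucc).val = u ∧ (f (Fin.last (n + 1))).val = v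
      then wgt K d (n + 2) f else 0

lemma sum_snoc {α : Type*} [Fintype α] (n : ℕ) (F : (Fin (n + 1) → α) → R) :
    ∑ f : Fin (n + 1) → α, F f = ∑ f : Fin n → α, ∑ c : α, F (Fin.snoc f c) := by
  have h := (Fin.snocEquiv (fun _ : Fin (n + 1) => α)).sum_comp F
  rw [← h, Fintype.sum_prod_type, Finset.sum_comm]
  rfl

lemma wgt_snoc (n : ℕ) (f : Fin n → Fin K.N) (c : Fin K.N) :
    wgt K d (n + 1) (Fin.snoc f c) = wgt K d n f * (K.x c *
      ∏ a : Fin n, if n ≤ a.val + d n then K.wt (f a) c else 1) := by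
  rw [wgt]
  have h1 : Fin.init (Fin.snoc f c : Fin (n + 1) → Fin K.N) = f := by
    simp
  rw [h1]
  simp only [Fin.snoc_last, Fin.snoc_castSucc]

lemma tot_succ (n : ℕ) : tot K d (n + 1) = ∑ c ∈ range K.N, s1 K d n c := by
  simp only [tot, s1]
  rw [Finset.sum_comm]
  apply Finset.sum_congr rfl
  intro f _
  rw [Finset.sum_ite_eq, if_pos (mem_range.2 (f (Fin.last n)).isLt)]

lemma s1_eq (n : ℕ) {v : ℕ} (hv : v < K.N) : s1 K d n v = ∑ f : Fin n → Fin K.N,
    wgt K d n f * (K.x v * ∏ a : Fin n, if n ≤ a.val + d n then K.wt (f a) v else 1) := by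
  rw [s1, sum_snoc]
  apply Finset.sum_congr rfl
  intro f _
  rw [Finset.sum_eq_single (⟨v, hv⟩ : Fin K.N)]
  · rw [Fin.snoc_last, if_pos rfl, wgt_snoc]
  · intro c _ hc
    rw [Fin.snoc_last, if_neg]
    intro h
    exact hc (Fin.ext h)
  · intro h
    exact absurd (Finset.mem_univ _) h

lemma s2_eq (n u : ℕ) {v : ℕ} (hv : v < K.N) : s2 K d n u v = ∑ f : Fin (n + 1) → Fin K.N,
    if (f (Fin.last n)).val = u then
    wgt K d (n + 1) f * (K.x v * ∏ a : Fin (n + 1),
      if n + 1 ≤ a.val + d (n + 1) then K.wt (f a) v else 1) else 0 := by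
  rw [s2, sum_snoc]
  apply Finset.sum_congr rfl
  intro f _
  rw [Finset.sum_eq_single (⟨v, hv⟩ : Fin K.N)]
  · rw [Fin.snoc_last, Fin.snoc_castSucc, wgt_snoc]
    by_cases h : (f (Fin.last n)).val = u
    · rw [if_pos ⟨h, rfl⟩, if_pos h]
    · rw [if_neg (fun h' => h h'.1), if_neg h]
  · intro c _ hc
    rw [Fin.snoc_last, if_neg]
    intro h
    exact hc (Fin.ext h.2)
  · intro h
    exact absurd (Finset.mem_univ _) h

lemma s1_of_zero (n : ℕ) (hd : d n = 0) {v : ℕ} (hv : v < K.N) :
    s1 K d n v = tot K d n * K.x v := by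
  rw [s1_eq K d n hv, tot, Finset.sum_mul]
  apply Finset.sum_congr rfl
  intro f _
  congr 1
  rw [Finset.prod_eq_one, mul_one]
  intro a _
  rw [if_neg]
  have := a.isLt
  omega

lemma s1_succ (n : ℕ) (v : ℕ) : s1 K d (n + 1) v = ∑ u ∈ range K.N, s2 K d n u v := by
  simp only [s1, s2]
  rw [Finset.sum_comm]
  apply Finset.sum_congr rfl
  intro f _
  by_cases h : (f (Fin.last (n + 1))).val = v
  · simp only [h, and_true, if_true]
    rw [Finset.sum_ite_eq, if_pos (mem_range.2 (f (Fin.last n).castSucc).isLt)]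
  · simp [h]

lemma s2_of_one (n : ℕ) (hd : d (n + 1) = 1) (u : ℕ) {v : ℕ} (hv : v < K.N) :
    s2 K d n u v = K.wt u v * (K.x v * s1 K d n u) := by
  rw [s2_eq K d n u hv, s1, Finset.mul_sum, Finset.mul_sum]
  apply Finset.sum_congr rfl
  intro f _
  by_cases h : (f (Fin.last n)).val = u
  · rw [if_pos h, if_pos h, Fin.prod_univ_castSucc, Finset.prod_eq_one]
    · rw [one_mul, if_pos (by simp [hd]), h]
      ring
    · intro a _
      rw [if_neg]
      have := a.isLt
      rw [Fin.val_castSucc]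
      omega
  · rw [if_neg h, if_neg h]; ring

lemma s2_of_two (n : ℕ) (hd : d (n + 2) = 2) (u : ℕ) {v : ℕ} (hv : v < K.N) :
    s2 K d (n + 1) u v = K.wt u v * (K.x v * ∑ c ∈ range K.N, K.wt c v * s2 K d n c u) := by
  rw [s2_eq K d (n + 1) u hv]
  have h1 : ∑ c ∈ range K.N, K.wt c v * s2 K d n c u
      = ∑ f : Fin (n + 2) → Fin K.N, if (f (Fin.last (n + 1))).val = u then
          wgt K d (n + 2) f * K.wt (f (Fin.last n).castSucc) v else 0 := by
    simp only [s2, Finset.mul_sum]
    rw [Finset.sum_comm]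
    apply Finset.sum_congr rfl
    intro f _
    by_cases h : (f (Fin.last (n + 1))).val = u
    · simp only [h, and_true, if_true]
      rw [Finset.sum_eq_single (f (Fin.last n).castSucc).val]
      · rw [if_pos rfl]; ring
      · intro c _ hc
        rw [if_neg (fun h' => hc h'.symm)]; ring
      · intro h'
        exact absurd (mem_range.2 (f (Fin.last n).castSucc).isLt) h'
    · simp [h]
  rw [h1, Finset.mul_sum, Finset.mul_sum]
  apply Finset.sum_congr rfl
  intro f _
  by_cases h : (f (Fin.last (n + 1))).val = u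
  · rw [if_pos h, if_pos h, Fin.prod_univ_castSucc, Fin.prod_univ_castSucc, Finset.prod_eq_one]
    · have hd' : d (n + 1 + 1) = 2 := hd
      rw [one_mul, if_pos (by simp [hd']), if_pos (by simp [hd']), h]
      ring
    · intro a _
      rw [if_neg]
      have := a.isLt
      have hd' : d (n + 1 + 1) = 2 := hd
      rw [Fin.val_castSucc, Fin.val_castSucc, hd']
      omega
  · rw [if_neg h, if_neg h]; ring

lemma wt_self (u : ℕ) : K.wt u u = 0 := by simp [Cut.wt]

lemma s2_diag (n : ℕ) (hd : 1 ≤ d (n + 1)) {u : ℕ} (hu : u < K.N) : s2 K d n u u = 0 := by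
  rw [s2_eq K d n u hu]
  apply Finset.sum_eq_zero
  intro f _
  by_cases h : (f (Fin.last n)).val = u
  · rw [if_pos h, Fin.prod_univ_castSucc]
    rw [if_pos (show n + 1 ≤ (Fin.last n).val + d (n + 1) by simp only [Fin.val_last]; omega), h,
      wt_self]
    ring
  · rw [if_neg h]

end sums

/-- the key induction: clique number at most three -/
theorem cone_of_le_two {R : Type*} [CommRing R] (K : ℕ → Cut R)
    (hq : ∀ N, ∀ a b : R, ((K N).q - 1) * a = ((K N).q - 1) * b → a = b)
    (d : ℕ → ℕ) (hd0 : d 0 = 0) (hd2 : ∀ n, d n ≤ 2) (hds : ∀ n, d (n + 1) ≤ d n + 1) (n : ℕ) :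
    Cone1 K (n + 1) (fun N => s1 (K N) d n) ∧
      (1 ≤ d (n + 1) → Cone2 K (n + 2) (fun N => s2 (K N) d n)) := by
  have hD : ∀ n, Cone1 K (n + 1) (fun N => s1 (K N) d n) →
      (1 ≤ n → 1 ≤ d n → Cone2 K (n + 1) (fun N => s2 (K N) d (n - 1))) →
      1 ≤ d (n + 1) → Cone2 K (n + 2) (fun N => s2 (K N) d n) := by
    intro n h1 h2 hd
    have hcases : d (n + 1) = 1 ∨ d (n + 1) = 2 := by have := hd2 (n + 1); omega
    rcases hcases with h | h
    · refine h1.up.of_eq rfl (fun N u v hu hv huv => ?_)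
      rw [s2_of_one _ _ _ h _ hv, Cut.up, Cut.wt, if_neg huv]
    · have hn : 1 ≤ n := by
        rcases Nat.eq_zero_or_pos n with h0 | h0
        · subst h0; have := hds 0; omega
        · exact h0
      obtain ⟨m, rfl⟩ : ∃ m, n = m + 1 := ⟨n - 1, by omega⟩
      have hdn : 1 ≤ d (m + 1) := by have := hds (m + 1); omega
      have h3 := h2 (by omega) hdn
      have e1 : m + 1 - 1 = m := rfl
      rw [e1] at h3
      refine (h3.step hq).of_eq rfl (fun N u v hu hv huv => ?_)
      rw [s2_of_two _ _ _ h _ hv, Cut.A]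
      congr 2
      apply Finset.sum_congr rfl
      intro c hc
      by_cases hcu : c = u
      · rw [if_pos hcu, hcu, s2_diag _ _ _ hdn hu]
      · rw [if_neg hcu]
  induction n with
  | zero =>
    have h1 : Cone1 K (0 + 1) (fun N => s1 (K N) d 0) := by
      refine (Lam.one (K := K)).new.of_eq rfl (fun N c hc => ?_)
      rw [s1_of_zero _ _ _ hd0 hc]
      simp [tot, wgt]
    exact ⟨h1, hD 0 h1 (by intro h; omega)⟩
  | succ n ih =>
    have h1 : Cone1 K (n + 1 + 1) (fun N => s1 (K N) d (n + 1)) := by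
      by_cases hd : 1 ≤ d (n + 1)
      · refine ((ih.2 hd).del hq).of_eq rfl (fun N c hc => ?_)
        rw [s1_succ, Cut.del]
        apply Finset.sum_congr rfl
        intro u _
        by_cases huc : u = c
        · rw [if_pos huc, huc, s2_diag _ _ _ hd hc]
        · rw [if_neg huc]
      · have h0 : d (n + 1) = 0 := by omega
        refine (ih.1.total hq).new.of_eq rfl (fun N c hc => ?_)
        rw [s1_of_zero _ _ _ h0 hc, tot_succ]
    exact ⟨h1, hD (n + 1) h1 (fun _ h => ih.2 h)⟩

theorem lam_of_le_two {R : Type*} [CommRing R] (K : ℕ → Cut R)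
    (hq : ∀ N, ∀ a b : R, ((K N).q - 1) * a = ((K N).q - 1) * b → a = b)
    (d : ℕ → ℕ) (hd0 : d 0 = 0) (hd2 : ∀ n, d n ≤ 2) (hds : ∀ n, d (n + 1) ≤ d n + 1) (n : ℕ) :
    Lam K n (fun N => tot (K N) d n) := by
  rcases n with _ | n
  · exact Lam.one.of_eq rfl (fun N => by simp [tot, wgt])
  · exact ((cone_of_le_two K hq d hd0 hd2 hds n).1.total hq).of_eq rfl
      (fun N => by rw [tot_succ])

end Vale.Agent.P066
end
end

section

section

set_option autoImplicit false

namespace Vale.Agent.P066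

open Finset

/-- add one part to a partition -/
def consPart {d : ℕ} (k : ℕ) (p : d.Partition) : (d + (k + 1)).Partition where
  parts := (k + 1) ::ₘ p.parts
  parts_pos := by
    intro i hi
    rcases Multiset.mem_cons.1 hi with h | h
    · omega
    · exact p.parts_pos h
  parts_sum := by
    rw [Multiset.sum_cons, p.parts_sum]; omega

section
variable {R : Type*} [CommRing R]

/-- extraction of the coefficients -/
theorem Lam.extract (i : Polynomial ℤ →+* R) {K : ℕ → Cut R} (hK : ∀ N, (K N).q = i Polynomial.X)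
    {d : ℕ} {a : ℕ → R} (h : Lam K d a) :
    ∃ c : d.Partition → Polynomial ℤ, (∀ p k, 0 ≤ (c p).coeff k) ∧
      ∀ N, a N = ∑ p : d.Partition, i (c p) * (p.parts.map (K N).e).prod := by
  induction h with
  | one =>
    refine ⟨fun _ => 1, fun _ k => ?_, fun N => ?_⟩
    · rw [Polynomial.coeff_one]; split_ifs <;> decide
    · have h0 : ∀ p : Nat.Partition 0, p.parts = 0 := by
        intro p
        by_contra hne
        obtain ⟨b, hb⟩ := Multiset.exists_mem_of_ne_zero hne
        have h1 := p.parts_pos hb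
        have h2 := Multiset.le_sum_of_mem hb
        rw [p.parts_sum] at h2
        omega
      rw [Fintype.sum_subsingleton _ (default : Nat.Partition 0), h0]
      simp
  | zero d =>
    refine ⟨fun _ => 0, fun _ k => by simp, fun N => by simp⟩
  | add _ _ ih1 ih2 =>
    obtain ⟨c1, h1, e1⟩ := ih1
    obtain ⟨c2, h2, e2⟩ := ih2
    refine ⟨fun p => c1 p + c2 p, fun p k => ?_, fun N => ?_⟩
    · rw [Polynomial.coeff_add]; exact add_nonneg (h1 p k) (h2 p k)
    · beta_reduce
      rw [e1, e2, ← Finset.sum_add_distrib]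
      apply Finset.sum_congr rfl
      intro p _
      rw [map_add]; ring
  | mulq _ ih =>
    obtain ⟨c1, h1, e1⟩ := ih
    refine ⟨fun p => Polynomial.X * c1 p, fun p k => ?_, fun N => ?_⟩
    · rcases k with _ | k
      · rw [Polynomial.coeff_X_mul_zero]
      · rw [Polynomial.coeff_X_mul]; exact h1 p k
    · beta_reduce
      rw [e1, Finset.mul_sum]
      apply Finset.sum_congr rfl
      intro p _
      rw [map_mul, hK]; ring
  | @mule d a k _ ih =>
    classical
    obtain ⟨c1, h1, e1⟩ := ih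
    refine ⟨fun μ => ∑ p : d.Partition, if consPart k p = μ then c1 p else 0,
      fun μ j => ?_, fun N => ?_⟩
    · rw [Polynomial.finsetSum_coeff]
      apply Finset.sum_nonneg
      intro p _
      by_cases h : consPart k p = μ
      · rw [if_pos h]; exact h1 p j
      · rw [if_neg h, Polynomial.coeff_zero]
    · have h2 : ∀ μ : (d + (k + 1)).Partition,
          i (∑ p : d.Partition, if consPart k p = μ then c1 p else 0) *
              (μ.parts.map (K N).e).prod
            = ∑ p : d.Partition, if consPart k p = μ then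
                i (c1 p) * (μ.parts.map (K N).e).prod else 0 := by
        intro μ
        rw [map_sum, Finset.sum_mul]
        apply Finset.sum_congr rfl
        intro p _
        by_cases h : consPart k p = μ
        · rw [if_pos h, if_pos h]
        · rw [if_neg h, if_neg h, map_zero, zero_mul]
      beta_reduce
      rw [Finset.sum_congr rfl (fun μ _ => h2 μ), Finset.sum_comm, e1, Finset.mul_sum]
      apply Finset.sum_congr rfl
      intro p _
      rw [Finset.sum_ite_eq, if_pos (Finset.mem_univ _)]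
      simp only [consPart, Multiset.map_cons, Multiset.prod_cons]
      ring

end

section wgt

variable {R : Type*} [CommRing R] (K : Cut R)

lemma wgt_eq (d : ℕ → ℕ) : ∀ (n : ℕ) (f : Fin n → Fin K.N),
    wgt K d n f = ∏ b : Fin n, (K.x (f b) *
      ∏ a : Fin n, if a < b ∧ b.val ≤ a.val + d b.val then K.wt (f a) (f b) else 1)
  | 0, f => by simp [wgt]
  | n + 1, f => by
    rw [wgt, wgt_eq d n, Fin.prod_univ_castSucc]
    congr 1
    · apply Finset.prod_congr rfl
      intro b _
      rw [Fin.prod_univ_castSucc, if_neg (fun h => absurd h.1 (not_lt.2 (Fin.le_last _)))]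
      rw [mul_one]
      congr 1
    · rw [Fin.prod_univ_castSucc, if_neg (fun h => absurd h.1 (lt_irrefl _)), mul_one]
      congr 1
      apply Finset.prod_congr rfl
      intro a _
      have h : (a.castSucc < Fin.last n ∧ (Fin.last n).val ≤ a.castSucc.val + d (Fin.last n).val)
          ↔ n ≤ a.val + d n := by
        constructor
        · intro h; simpa using h.2
        · intro h; exact ⟨Fin.castSucc_lt_last a, by simpa using h⟩
      by_cases hc : n ≤ a.val + d n
      · rw [if_pos hc, if_pos (h.2 hc)]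
      · rw [if_neg hc, if_neg (fun h' => hc (h.1 h'))]

/-- the weight of a colouring in terms of the graph -/
lemma wgt_graph {n : ℕ} (d : ℕ → ℕ) (G : SimpleGraph (Fin n))
    (hG : ∀ a b : Fin n, a < b → (G.Adj a b ↔ b.val ≤ a.val + d b.val)) (f : Fin n → Fin K.N)
    [Decidable (∀ a b, G.Adj a b → f a ≠ f b)] :
    wgt K d n f = if (∀ a b, G.Adj a b → f a ≠ f b) then
      K.q ^ asc G f * ∏ a, K.x (f a) else 0 := by
  classical
  rw [wgt_eq, Finset.prod_mul_distrib, ← Finset.prod_product']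
  have key : ∀ p : Fin n × Fin n, (if p.2 < p.1 ∧ p.1.val ≤ p.2.val + d p.1.val then
      K.wt (f p.2) (f p.1) else 1) =
      if (p.2 < p.1 ∧ G.Adj p.2 p.1) then K.wt (f p.2) (f p.1) else 1 := by
    intro p
    by_cases h : p.2 < p.1
    · by_cases h' : G.Adj p.2 p.1
      · rw [if_pos ⟨h, (hG _ _ h).1 h'⟩, if_pos ⟨h, h'⟩]
      · rw [if_neg (fun hh => h' ((hG _ _ h).2 hh.2)), if_neg (fun hh => h' hh.2)]
    · rw [if_neg (fun hh => h hh.1), if_neg (fun hh => h hh.1)]
  rw [Finset.prod_congr rfl (fun p _ => key p)]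
  by_cases hp : ∀ a b, G.Adj a b → f a ≠ f b
  · rw [if_pos hp, mul_comm]
    congr 1
    have h2 : ∀ p : Fin n × Fin n,
        (if (p.2 < p.1 ∧ G.Adj p.2 p.1) then K.wt (f p.2) (f p.1) else 1) =
        if (p.2 < p.1 ∧ G.Adj p.2 p.1 ∧ f p.2 < f p.1) then K.q else 1 := by
      intro p
      by_cases h : p.2 < p.1 ∧ G.Adj p.2 p.1
      · rw [if_pos h]
        have hne : (f p.2).val ≠ (f p.1).val := fun hh => hp _ _ h.2 (Fin.ext hh)
        rw [Cut.wt, if_neg hne]
        by_cases h3 : f p.2 < f p.1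
        · rw [if_pos (Fin.lt_def.1 h3), if_pos ⟨h.1, h.2, h3⟩]
        · rw [if_neg (fun hh => h3 (Fin.lt_def.2 hh)), if_neg (fun hh => h3 hh.2.2)]
      · rw [if_neg h, if_neg (fun hh => h ⟨hh.1, hh.2.1⟩)]
    rw [Finset.prod_congr rfl (fun p _ => h2 p), Finset.prod_ite, Finset.prod_const,
      Finset.prod_const_one, mul_one]
    congr 1
    rw [asc]
    refine Finset.card_bij (fun p _ => (p.2, p.1)) ?_ ?_ ?_
    · intro p hp'
      rw [Finset.mem_filter] at hp' ⊢
      exact ⟨Finset.mem_univ _, hp'.2⟩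
    · intro p _ p' _ h
      simp only [Prod.mk.injEq] at h
      exact Prod.ext h.2 h.1
    · intro p hp'
      rw [Finset.mem_filter] at hp'
      refine ⟨(p.2, p.1), ?_, rfl⟩
      rw [Finset.mem_filter]
      exact ⟨Finset.mem_product.2 ⟨Finset.mem_univ _, Finset.mem_univ _⟩, hp'.2⟩
  · rw [if_neg hp]
    push Not at hp
    obtain ⟨a, b, hab, hf⟩ := hp
    have h4 : ∃ p : Fin n × Fin n, (p.2 < p.1 ∧ G.Adj p.2 p.1) ∧ f p.2 = f p.1 := by
      rcases lt_trichotomy a b with h | h | h
      · exact ⟨(b, a), ⟨h, hab⟩, hf⟩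
      · exact absurd (h ▸ hab) (G.loopless.irrefl a)
      · exact ⟨(a, b), ⟨h, hab.symm⟩, hf.symm⟩
    obtain ⟨p, hp1, hp2⟩ := h4
    rw [Finset.prod_eq_zero (Finset.mem_product.2 ⟨Finset.mem_univ p.1, Finset.mem_univ p.2⟩),
      mul_zero]
    rw [if_pos hp1, Cut.wt, if_pos (by rw [hp2])]

end wgt

end Vale.Agent.P066
end
end

section

section

set_option autoImplicit false

namespace Vale.Agent.P066

open Finset

section degree

variable {n : ℕ} (h : Fin n → Fin n)

/-- number of smaller neighbours of `b` -/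
def low (b : ℕ) : ℕ := #{a : Fin n | a.val < b ∧ b ≤ (h a).val}

lemma low_zero : low h 0 = 0 := by
  rw [low, Finset.card_eq_zero, Finset.filter_eq_empty_iff]
  intro a _ ha
  omega

lemma low_succ (b : ℕ) : low h (b + 1) ≤ low h b + 1 := by
  rw [low, low]
  by_cases hb : b < n
  · calc #{a : Fin n | a.val < b + 1 ∧ b + 1 ≤ (h a).val}
        ≤ #(insert (⟨b, hb⟩ : Fin n)
            (Finset.univ.filter fun a : Fin n => a.val < b ∧ b ≤ (h a).val)) := by
          apply Finset.card_le_card
          intro a ha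
          rw [Finset.mem_filter] at ha
          rw [Finset.mem_insert, Finset.mem_filter]
          by_cases hab : a.val = b
          · left; exact Fin.ext hab
          · right; exact ⟨Finset.mem_univ _, by omega, by omega⟩
      _ ≤ _ := Finset.card_insert_le _ _
  · have h0 : #{a : Fin n | a.val < b + 1 ∧ b + 1 ≤ (h a).val} = 0 := by
      rw [Finset.card_eq_zero, Finset.filter_eq_empty_iff]
      intro a _ ha
      have := (h a).isLt
      omega
    omega

lemma adj_iff_low (hmono : Monotone h) (a b : Fin n) (hab : a < b) :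
    (unitIntervalGraph h).Adj a b ↔ b.val ≤ a.val + low h b.val := by
  have h1 : (unitIntervalGraph h).Adj a b ↔ b ≤ h a := by
    constructor
    · rintro (hh | hh)
      · exact hh.2
      · exact absurd hh.1 (not_lt.2 hab.le)
    · intro hh; exact Or.inl ⟨hab, hh⟩
  rw [h1]
  constructor
  · intro hb
    have h2 : #(Finset.Ico a b) ≤ low h b.val := by
      apply Finset.card_le_card
      intro c hc
      rw [Finset.mem_Ico] at hc
      rw [Finset.mem_filter]
      refine ⟨Finset.mem_univ _, Fin.lt_def.1 hc.2, ?_⟩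
      exact Fin.le_def.1 (le_trans hb (hmono hc.1))
    rw [Fin.card_Ico] at h2
    omega
  · intro hb
    by_contra hcon
    rw [not_le] at hcon
    have h2 : low h b.val ≤ #(Finset.Ioo a b) := by
      apply Finset.card_le_card
      intro c hc
      rw [Finset.mem_filter] at hc
      rw [Finset.mem_Ioo]
      refine ⟨?_, Fin.lt_def.2 hc.2.1⟩
      by_contra hca
      rw [not_lt] at hca
      have := lt_of_le_of_lt (hmono hca) hcon
      rw [Fin.lt_def] at this
      have := hc.2.2
      omega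
    rw [Fin.card_Ioo] at h2
    rw [Fin.lt_def] at hab
    omega

lemma low_le_two (hω : (unitIntervalGraph h).CliqueFree 4) (b : ℕ) : low h b ≤ 2 := by
  by_contra hcon
  rw [not_le] at hcon
  have hb : b < n := by
    by_contra hb
    rw [low] at hcon
    have h0 : #{a : Fin n | a.val < b ∧ b ≤ (h a).val} = 0 := by
      rw [Finset.card_eq_zero, Finset.filter_eq_empty_iff]
      intro a _ ha
      have := (h a).isLt
      omega
    omega
  obtain ⟨t, ht, hcard⟩ := Finset.exists_subset_card_eq (s := {a : Fin n | a.val < b ∧ b ≤ (h a).val})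
    (n := 3) (by rw [low] at hcon; omega)
  have hadj : ∀ a ∈ t, ∀ a' : Fin n, a < a' → a'.val ≤ b → (unitIntervalGraph h).Adj a a' := by
    intro a ha a' haa hle
    have h2 := Finset.mem_filter.1 (ht ha)
    refine Or.inl ⟨haa, ?_⟩
    rw [Fin.le_def]
    omega
  have hcl : (unitIntervalGraph h).IsNClique 3 t := by
    refine ⟨?_, hcard⟩
    intro a ha a' ha' hne
    have hlt : ∀ c ∈ t, c.val < b := fun c hc => (Finset.mem_filter.1 (ht hc)).2.1
    rcases lt_or_gt_of_ne hne with hh | hh
    · exact hadj a ha a' hh (hlt a' ha').le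
    · exact (hadj a' ha' a hh (hlt a ha).le).symm
  refine hω _ (hcl.insert (a := (⟨b, hb⟩ : Fin n)) (fun a ha => ?_))
  exact (hadj a ha ⟨b, hb⟩ (Fin.lt_def.2 (Finset.mem_filter.1 (ht ha)).2.1) le_rfl).symm

end degree

section esymm

variable {R : Type*} [CommRing R]

lemma coeff_prod_lin (s : Finset ℕ) (f : ℕ → R) (k : ℕ) :
    (∏ i ∈ s, lin (f i)).coeff k = ∑ t ∈ s.powersetCard k, ∏ i ∈ t, f i := by
  simp only [lin]
  rw [Finset.prod_one_add, Polynomial.finsetSum_coeff]
  have h1 : ∀ t ∈ s.powerset, (∏ i ∈ t, (Polynomial.C (f i) * Polynomial.X)).coeff k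
      = if t.card = k then ∏ i ∈ t, f i else 0 := by
    intro t _
    rw [Finset.prod_mul_distrib, Finset.prod_const, ← map_prod, Polynomial.coeff_C_mul_X_pow]
    by_cases h : k = t.card
    · rw [if_pos h, if_pos h.symm]
    · rw [if_neg h, if_neg (fun hh => h hh.symm)]
  rw [Finset.sum_congr rfl h1, ← Finset.sum_filter, ← Finset.powersetCard_eq_filter]

end esymm

/-- the colour data in the polynomial ring in countably many variables -/
noncomputable def theCut (N : ℕ) : Cut (MvPolynomial ℕ (Polynomial ℤ)) :=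
  mkCut (MvPolynomial.C Polynomial.X) MvPolynomial.X N

lemma theCut_e (N k : ℕ) : (theCut N).e k =
    MvPolynomial.rename Fin.val (MvPolynomial.esymm (Fin N) (Polynomial ℤ) k) := by
  have h1 : (theCut N).e k =
      (∏ s ∈ range N, lin (MvPolynomial.X s : MvPolynomial ℕ (Polynomial ℤ))).coeff k := by
    simp only [theCut, mkCut, Cut.e, Finset.range_zero, Finset.prod_empty, one_mul,
      ← Finset.range_eq_Ico]
  rw [h1, coeff_prod_lin, MvPolynomial.esymm, map_sum]
  symm
  have h2 : (range N) = (Finset.univ : Finset (Fin N)).map Fin.valEmbedding := by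
    ext i
    simp only [Finset.mem_range, Finset.mem_map, Finset.mem_univ, true_and]
    constructor
    · intro hi; exact ⟨⟨i, hi⟩, rfl⟩
    · rintro ⟨a, rfl⟩; exact a.isLt
  rw [h2, Finset.powersetCard_map, Finset.sum_map]
  apply Finset.sum_congr rfl
  intro t _
  rw [map_prod, RelEmbedding.coe_toEmbedding, Finset.mapEmbedding_apply, Finset.prod_map]
  apply Finset.prod_congr rfl
  intro i _
  rw [MvPolynomial.rename_X]
  rfl

/-- the total colour sum is the chromatic quasisymmetric function -/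
lemma tot_eq_rename {n : ℕ} (d : ℕ → ℕ) (G : SimpleGraph (Fin n))
    (hG : ∀ a b : Fin n, a < b → (G.Adj a b ↔ b.val ≤ a.val + d b.val)) (N : ℕ) :
    tot (theCut N) d n = MvPolynomial.rename Fin.val (chromaticQSF G N) := by
  classical
  rw [chromaticQSF, Finset.sum_filter, map_sum, tot]
  apply Finset.sum_congr rfl
  intro f _
  refine (wgt_graph (theCut N) d G hG f).trans ?_
  by_cases h : ∀ a b, G.Adj a b → f a ≠ f b
  · refine (if_pos h).trans ?_
    refine Eq.trans ?_ (congrArg _ (if_pos h).symm)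
    rw [map_mul, map_prod, MvPolynomial.rename_C, map_pow]
    congr 1
    apply Finset.prod_congr rfl
    intro a _
    exact (MvPolynomial.rename_X Fin.val (f a)).symm
  · refine (if_neg h).trans ?_
    refine Eq.trans ?_ (congrArg _ (if_neg h).symm)
    rw [map_zero]

lemma theCut_hq (N : ℕ) (a b : MvPolynomial ℕ (Polynomial ℤ))
    (h : ((theCut N).q - 1) * a = ((theCut N).q - 1) * b) : a = b := by
  refine mul_left_cancel₀ ?_ h
  intro h0
  have h1 : (MvPolynomial.C (Polynomial.X - 1) : MvPolynomial ℕ (Polynomial ℤ)) = 0 := by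
    rw [map_sub, map_one]; exact h0
  rw [MvPolynomial.C_eq_zero] at h1
  exact Polynomial.X_sub_C_ne_zero (1 : ℤ) (by rw [map_one]; exact h1)

/-- positivity for an arbitrary graph whose lower-degree data give a positive family -/
theorem expansion_of_Lam {n : ℕ} (d : ℕ → ℕ) (G : SimpleGraph (Fin n))
    (hG : ∀ a b : Fin n, a < b → (G.Adj a b ↔ b.val ≤ a.val + d b.val))
    (hL : Lam theCut n (fun N => tot (theCut N) d n)) :
    ∃ c : n.Partition → Polynomial ℤ, (∀ p k, 0 ≤ (c p).coeff k) ∧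
      ∀ N, chromaticQSF G N
        = ∑ p : n.Partition, MvPolynomial.C (c p) * MvPolynomial.esymmPart (Fin N) _ p := by
  obtain ⟨c, hc, he⟩ := hL.extract MvPolynomial.C (fun N => rfl)
  refine ⟨c, hc, fun N => ?_⟩
  apply MvPolynomial.rename_injective _ (Fin.val_injective (n := N))
  rw [← tot_eq_rename d G hG, he N, map_sum]
  apply Finset.sum_congr rfl
  intro p _
  rw [map_mul, MvPolynomial.rename_C, MvPolynomial.esymmPart, map_multiset_prod,
    Multiset.map_map]
  congr 3
  funext k
  exact theCut_e N k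

/-- multiplicities of the parts of a partition -/
noncomputable def mult {n : ℕ} (p : n.Partition) : Fin n →₀ ℕ :=
  Finsupp.equivFunOnFinite.symm (fun i : Fin n => p.parts.count (i.val + 1))

lemma mult_injective {n : ℕ} : Function.Injective (mult : n.Partition → (Fin n →₀ ℕ)) := by
  intro p p' h
  apply Nat.Partition.ext
  rw [Multiset.ext]
  intro a
  by_cases ha : 1 ≤ a ∧ a ≤ n
  · have := congrArg (fun t : Fin n →₀ ℕ => t ⟨a - 1, by omega⟩) h
    simp only [mult, Finsupp.equivFunOnFinite_symm_apply_apply] at this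
    have e : a - 1 + 1 = a := by omega
    rwa [e] at this
  · have h0 : ∀ p : n.Partition, p.parts.count a = 0 := by
      intro p
      rw [Multiset.count_eq_zero]
      intro hm
      exact ha ⟨p.parts_pos hm, p.le_of_mem_parts hm⟩
    rw [h0, h0]

lemma esymmPart_eq {n : ℕ} (N : ℕ) (p : n.Partition) (r : Polynomial ℤ) :
    (MvPolynomial.esymmAlgHom (Fin N) (Polynomial ℤ) n
        (MvPolynomial.monomial (mult p) r)).val
      = MvPolynomial.C r * MvPolynomial.esymmPart (Fin N) (Polynomial ℤ) p := by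
  rw [MvPolynomial.esymmAlgHom_apply, MvPolynomial.aeval_monomial, MvPolynomial.algebraMap_eq,
    MvPolynomial.esymmPart, Finset.prod_multiset_map_count, Finsupp.prod_fintype _ _ (by simp)]
  congr 1
  simp only [mult, Finsupp.equivFunOnFinite_symm_apply_apply]
  symm
  rw [Finset.prod_subset (s₁ := p.parts.toFinset)
    (s₂ := (Finset.univ : Finset (Fin n)).image (fun i => i.val + 1))]
  · rw [Finset.prod_image]
    intro i _ j _ hij
    exact Fin.ext (by simpa using hij)
  · intro a ha
    rw [Multiset.mem_toFinset] at ha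
    have h1 := p.parts_pos ha
    have h2 := p.le_of_mem_parts ha
    rw [Finset.mem_image]
    exact ⟨⟨a - 1, by omega⟩, Finset.mem_univ _, by simp only; omega⟩
  · intro a _ ha
    rw [Multiset.mem_toFinset] at ha
    rw [Multiset.count_eq_zero.2 ha, pow_zero]

/-- uniqueness of the expansion -/
theorem expansion_unique {n N : ℕ} (hN : n ≤ N) (c c' : n.Partition → Polynomial ℤ)
    (h : ∑ p : n.Partition, MvPolynomial.C (c p) * MvPolynomial.esymmPart (Fin N) _ p
      = ∑ p : n.Partition, MvPolynomial.C (c' p) * MvPolynomial.esymmPart (Fin N) _ p) :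
    c = c' := by
  classical
  have hinj : Function.Injective (MvPolynomial.esymmAlgHom (Fin N) (Polynomial ℤ) n) :=
    MvPolynomial.esymmAlgHom_injective _ (by simpa using hN)
  have h1 : ∑ p : n.Partition, MvPolynomial.monomial (mult p) (c p)
      = ∑ p : n.Partition, MvPolynomial.monomial (mult p) (c' p) := by
    apply hinj
    apply Subtype.ext
    rw [map_sum, map_sum, AddSubmonoidClass.coe_finsetSum, AddSubmonoidClass.coe_finsetSum,
      Finset.sum_congr rfl (fun p _ => esymmPart_eq N p (c p)), h,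
      Finset.sum_congr rfl (fun p _ => esymmPart_eq N p (c' p))]
  have h2 : ∀ (b : n.Partition → Polynomial ℤ) (p : n.Partition),
      MvPolynomial.coeff (mult p) (∑ p : n.Partition, MvPolynomial.monomial (mult p) (b p))
        = b p := by
    intro b p
    rw [MvPolynomial.coeff_sum, Finset.sum_eq_single p]
    · rw [MvPolynomial.coeff_monomial, if_pos rfl]
    · intro p' _ hne
      rw [MvPolynomial.coeff_monomial, if_neg (fun hh => hne (mult_injective hh))]
    · intro hh
      exact absurd (Finset.mem_univ _) hh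
  funext p
  rw [← h2 c p, h1, h2 c' p]

/-- graphs `G(h)` without four pairwise adjacent vertices -/
theorem expansion_of_cliqueFree {n : ℕ} (h : Fin n → Fin n) (hmono : Monotone h)
    (hω : (unitIntervalGraph h).CliqueFree 4) :
    ∃ c : n.Partition → Polynomial ℤ, (∀ p k, 0 ≤ (c p).coeff k) ∧
      ∀ N, chromaticQSF (unitIntervalGraph h) N
        = ∑ p : n.Partition, MvPolynomial.C (c p) * MvPolynomial.esymmPart (Fin N) _ p :=
  expansion_of_Lam (low h) _ (fun a b hab => adj_iff_low h hmono a b hab)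
    (lam_of_le_two theCut theCut_hq (low h) (low_zero h) (low_le_two h hω) (low_succ h) n)

end Vale.Agent.P066
end
end
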